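import Vale.Agent.P280.H989.RSChain

/-! P280, plan N, stage 2: the weights near an interior weight, combinatorics. -/

namespace Vale.Agent.P280.N.H989

variable {r : ℕ} {V : Finset (Fin r → ℤ)} {W : Set (Fin r → ℤ)}
  {b : (Fin r → ℤ) → ((Fin r → ℤ) →+ ℤ)} {N : ℤ}

namespace KS

variable {lam : Fin r → ℤ} {n : ℕ} {χ : Fin n → Fin r → ℤ}

/-- `G A = (n + 1 - a) ∑_{i ∈ A} b χ_i - a ∑_{j ∉ A} b χ_j`, `a = card A` -/
noncomputable def GA (b : (Fin r → ℤ) → ((Fin r → ℤ) →+ ℤ)) {n : ℕ} (χ : Fin n → Fin r → ℤ)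
    (A : Finset (Fin n)) : (Fin r → ℤ) →+ ℤ :=
  ∑ i, (if i ∈ A then (n : ℤ) + 1 - A.card else -(A.card : ℤ)) • b (χ i)

theorem GA_apply (A : Finset (Fin n)) (ω : Fin r → ℤ) :
    GA b χ A ω = ∑ i, (if i ∈ A then (n : ℤ) + 1 - A.card else -(A.card : ℤ)) * b (χ i) ω := by
  rw [GA, AddMonoidHom.finsetSum_apply]
  exact Finset.sum_congr rfl fun i _ => by rw [AddMonoidHom.smul_apply, smul_eq_mul]

theorem sum_w (A : Finset (Fin n)) :
    ∑ i, (if i ∈ A then (n : ℤ) + 1 - A.card else -(A.card : ℤ)) = A.card := by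
  rw [Finset.sum_ite, Finset.sum_const, Finset.sum_const, Finset.filter_mem_eq_inter,
    Finset.univ_inter]
  have h1 : (Finset.univ.filter fun x => x ∉ A) = Aᶜ := by
    ext x; simp
  rw [h1, Finset.card_compl, Fintype.card_fin, nsmul_eq_mul, nsmul_eq_mul]
  have h2 : A.card ≤ n := by
    simpa using A.card_le_univ
  push_cast [Nat.cast_sub h2]
  ring

theorem GA_chi (c : KS V W b N lam χ) (A : Finset (Fin n)) (k : Fin n) :
    GA b χ A (χ k) = if k ∈ A then ((n : ℤ) + 1) * N else 0 := by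
  rw [GA_apply]
  have h1 : ∀ i, (if i ∈ A then (n : ℤ) + 1 - A.card else -(A.card : ℤ)) * b (χ i) (χ k) =
      (if i ∈ A then (n : ℤ) + 1 - A.card else -(A.card : ℤ)) * N +
        (if i = k then (if i ∈ A then (n : ℤ) + 1 - A.card else -(A.card : ℤ)) * N else 0) := by
    intro i
    by_cases hik : i = k
    · rw [if_pos hik, hik, c.h.two _ (c.mem k)]; ring
    · rw [if_neg hik, c.pair i k hik]; ring
  rw [Finset.sum_congr rfl (fun i _ => h1 i), Finset.sum_add_distrib, ← Finset.sum_mul, sum_w,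
    Finset.sum_ite_eq', if_pos (Finset.mem_univ k)]
  split_ifs <;> ring

theorem GA_abs (c : KS V W b N lam χ) (A : Finset (Fin n)) {ρ : Fin r → ℤ} (hρ : ρ ∈ V) :
    |GA b χ A ρ| ≤ ((n : ℤ) + 1) * N := by
  have hN := c.h.N0
  have h0 : 0 ≤ ((n : ℤ) + 1) * N := by positivity
  rcases c.dich hρ with ⟨j, rfl⟩ | ⟨j, rfl⟩ | ⟨i, j, hij, rfl⟩ | h3
  · rw [c.GA_chi]
    split_ifs
    · rw [abs_of_nonneg h0]
    · simpa using h0
  · rw [map_neg, abs_neg, c.GA_chi]
    split_ifs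
    · rw [abs_of_nonneg h0]
    · simpa using h0
  · rw [map_sub, c.GA_chi, c.GA_chi, abs_le]
    split_ifs <;> constructor <;> linarith
  · rw [GA_apply, Finset.sum_eq_zero]
    · simpa using h0
    · intro i _
      rw [h3.2.2 i, mul_zero]

theorem arith1 {n a : ℤ} (h1 : 1 ≤ a) (h2 : a ≤ n) (h3 : (n + 1 - a) * a ≤ n + 1) :
    a = 1 ∨ a = n ∨ (n = 3 ∧ a = 2) := by
  by_contra hc
  push Not at hc
  obtain ⟨c1, c2, c3⟩ := hc
  have h4 : 2 ≤ a := by omega
  have h5 : a ≤ n - 1 := by omega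
  have h6 : (a - 1) * (n - a) ≤ 1 := by nlinarith
  have h7 : a - 1 ≤ 1 := by nlinarith
  have h8 : n - a ≤ 1 := by nlinarith
  have h9 : a = 2 := by omega
  have h10 : n = 3 := by omega
  exact c3 h10 h9

theorem arith2 {n a : ℤ} (h1 : 1 ≤ a) (h2 : a ≤ n) (h3 : 2 * ((n + 1 - a) * a) ≤ n + 1) :
    n ≤ 1 := by nlinarith [mul_nonneg (sub_nonneg.2 h1) (sub_nonneg.2 h2)]

/-- The weights which are not orthogonal to the `χ j`. -/
theorem class_W (c : KS V W b N lam χ) (hn : 2 ≤ n) {μ : Fin r → ℤ} (hμ : μ ∈ W) :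
    (∀ j, b (χ j) μ = 0) ∨ (∃ j, μ = χ j ∨ μ = -χ j) ∨ (∃ i j, i ≠ j ∧ μ = χ i - χ j) ∨
      (∃ j, μ = χ j - lam ∨ μ = -(χ j - lam)) ∨ μ = lam ∨ μ = -lam ∨
      (n = 3 ∧ ∃ i j, i ≠ j ∧
        (μ = (χ i - lam) + (χ j - lam) ∨ μ = -((χ i - lam) + (χ j - lam)))) := by
  classical
  have hN := c.h.N0
  by_cases hz : ∀ j, b (χ j) μ = 0
  · exact Or.inl hz
  by_cases hx : ∃ j, μ = χ j ∨ μ = -χ j
  · exact Or.inr (Or.inl hx)
  by_cases hd : ∃ i j, i ≠ j ∧ μ = χ i - χ j
  · exact Or.inr (Or.inr (Or.inl hd))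
  right; right; right
  push Not at hz hx hd
  have hv : ∀ j, b (χ j) μ = 0 ∨ b (χ j) μ = N ∨ b (χ j) μ = -N := fun j =>
    c.h.vals (c.mem j) hμ (hx j).1 (hx j).2
  have hdf : ∀ i j, i ≠ j → |b (χ i) μ - b (χ j) μ| ≤ N := by
    intro i j hij
    rw [← c.diff_b hij hμ]
    apply c.h.bd _ (c.diff_mem hij) _ hμ (hd i j hij)
    intro h1
    apply hd j i hij.symm
    rw [h1]; abel
  obtain ⟨j0, hj0⟩ := hz
  obtain ⟨ε, hε, hεj⟩ : ∃ ε : ℤ, (ε = 1 ∨ ε = -1) ∧ b (χ j0) μ = ε * N := by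
    rcases hv j0 with h1 | h1 | h1
    · exact absurd h1 hj0
    · exact ⟨1, Or.inl rfl, by rw [h1, one_mul]⟩
    · exact ⟨-1, Or.inr rfl, by rw [h1]; ring⟩
  have hε2 : ε * ε = 1 := by rcases hε with h1 | h1 <;> rw [h1] <;> norm_num
  have hve : ∀ j, b (χ j) μ = 0 ∨ b (χ j) μ = ε * N := by
    intro j
    by_cases hjj : j = j0
    · right; rw [hjj, hεj]
    · have h1 := abs_le.1 (hdf j j0 hjj)
      rw [hεj] at h1
      rcases hv j with h2 | h2 | h2
      · exact Or.inl h2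
      · right
        rcases hε with h3 | h3
        · rw [h2, h3, one_mul]
        · exfalso
          rw [h2, h3] at h1
          linarith
      · right
        rcases hε with h3 | h3
        · exfalso
          rw [h2, h3] at h1
          linarith
        · rw [h2, h3]; ring
  set A : Finset (Fin n) := Finset.univ.filter (fun j => b (χ j) μ = ε * N) with hA
  have hεN : ε * N ≠ 0 := by
    rcases hε with h3 | h3 <;> rw [h3] <;> omega
  have hAm : ∀ j, j ∈ A ↔ b (χ j) μ = ε * N := fun j => by rw [hA, Finset.mem_filter]; simp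
  have hval : ∀ j, b (χ j) μ = if j ∈ A then ε * N else 0 := by
    intro j
    split_ifs with h1
    · exact (hAm j).1 h1
    · exact (hve j).resolve_right fun h2 => h1 ((hAm j).2 h2)
  have ha1 : 1 ≤ A.card := Finset.card_pos.2 ⟨j0, (hAm j0).2 hεj⟩
  have ha2 : A.card ≤ n := by simpa using A.card_le_univ
  have hGμ : ε * GA b χ A μ = ((n : ℤ) + 1 - A.card) * A.card * N := by
    rw [GA_apply]
    have h1 : ∀ i, (if i ∈ A then (n : ℤ) + 1 - A.card else -(A.card : ℤ)) * b (χ i) μ =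
        if i ∈ A then ((n : ℤ) + 1 - A.card) * (ε * N) else 0 := by
      intro i
      rw [hval i]
      split_ifs <;> simp
    rw [Finset.sum_congr rfl (fun i _ => h1 i), Finset.sum_ite_mem, Finset.univ_inter,
      Finset.sum_const, nsmul_eq_mul]
    linear_combination ((A.card : ℤ) * ((n : ℤ) + 1 - A.card) * N) * hε2
  have hεG : ∀ ρ ∈ V, (ε • GA b χ A) ρ ≤ ((n : ℤ) + 1) * N := by
    intro ρ hρ
    have h1 := abs_le.1 (c.GA_abs A hρ)
    rw [AddMonoidHom.smul_apply, smul_eq_mul]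
    rcases hε with h3 | h3 <;> rw [h3] <;> linarith
  have hle : ((n : ℤ) + 1 - A.card) * A.card ≤ (n : ℤ) + 1 := by
    have h1 := c.h.ext (ε • GA b χ A) (((n : ℤ) + 1) * N) (by positivity) hεG μ hμ
    rw [AddMonoidHom.smul_apply, smul_eq_mul, hGμ] at h1
    exact le_of_mul_le_mul_right h1 hN
  have horth : ∀ ψ ∈ V, Orth b lam χ ψ → b ψ μ = 0 := by
    intro ψ hψ ho
    by_contra hne
    have e1 : μ ≠ ψ := by
      intro h1
      rw [h1] at hj0
      exact hj0 (ho.2.2 j0)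
    have e2 : μ ≠ -ψ := by
      intro h1
      rw [h1, map_neg, ho.2.2 j0, neg_zero] at hj0
      exact hj0 rfl
    obtain ⟨δ, hδ, hδj⟩ : ∃ δ : ℤ, (δ = 1 ∨ δ = -1) ∧ δ * b ψ μ = N := by
      rcases c.h.vals hψ hμ e1 e2 with h1 | h1 | h1
      · exact absurd h1 hne
      · exact ⟨1, Or.inl rfl, by rw [h1, one_mul]⟩
      · exact ⟨-1, Or.inr rfl, by rw [h1]; ring⟩
    have h1 := c.h.ext ((2 * ε) • GA b χ A + (((n : ℤ) + 1) * δ) • b ψ)
      (2 * (((n : ℤ) + 1) * N)) (by positivity) (fun ρ hρ => by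
        have h2 := hεG ρ hρ
        rw [AddMonoidHom.smul_apply, smul_eq_mul] at h2
        rw [AddMonoidHom.add_apply, AddMonoidHom.smul_apply, AddMonoidHom.smul_apply, smul_eq_mul,
          smul_eq_mul]
        have h3 : b ψ ρ = 0 ∨ (GA b χ A ρ = 0 ∧ |b ψ ρ| ≤ 2 * N) := by
          rcases c.dich hρ with ⟨j, rfl⟩ | ⟨j, rfl⟩ | ⟨i, j, hij, rfl⟩ | h3
          · exact Or.inl (ho.2.1 j)
          · left; rw [map_neg, ho.2.1 j, neg_zero]
          · left; rw [map_sub, ho.2.1 i, ho.2.1 j, sub_zero]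
          · right
            refine ⟨?_, ?_⟩
            · rw [GA_apply, Finset.sum_eq_zero]
              intro i _
              rw [h3.2.2 i, mul_zero]
            · by_cases e3 : ρ = ψ
              · rw [e3, c.h.two ψ hψ, abs_of_pos (by omega)]
              · by_cases e4 : ρ = -ψ
                · rw [e4, map_neg, c.h.two ψ hψ, abs_neg, abs_of_pos (by omega)]
                · have := c.h.bd ψ hψ ρ (c.h.sub ρ hρ) e3 e4
                  linarith
        rcases h3 with h3 | ⟨h3, h4⟩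
        · rw [h3, mul_zero, add_zero]
          linarith
        · rw [h3, mul_zero, zero_add]
          have h5 := abs_le.1 h4
          have h6 : δ * b ψ ρ ≤ 2 * N := by rcases hδ with h7 | h7 <;> rw [h7] <;> linarith
          have h8 : (0 : ℤ) ≤ (n : ℤ) + 1 := by positivity
          nlinarith) μ hμ
    rw [AddMonoidHom.add_apply, AddMonoidHom.smul_apply, AddMonoidHom.smul_apply, smul_eq_mul,
      smul_eq_mul] at h1
    have h9 : 2 * (((n : ℤ) + 1 - A.card) * A.card) * N ≤ ((n : ℤ) + 1) * N := by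
      have e5 : 2 * ε * GA b χ A μ = 2 * (((n : ℤ) + 1 - A.card) * A.card * N) := by
        rw [← hGμ]; ring
      have e6 : ((n : ℤ) + 1) * δ * b ψ μ = ((n : ℤ) + 1) * N := by rw [← hδj]; ring
      rw [e5, e6] at h1
      linarith
    have h10 := le_of_mul_le_mul_right h9 hN
    have h11 := arith2 (by exact_mod_cast ha1) (by exact_mod_cast ha2) h10
    omega
  have hμA : μ = ε • ∑ i ∈ A, (χ i - lam) := by
    apply sub_eq_zero.1
    apply c.nd'
    · exact sub_mem (AddSubgroup.subset_closure hμ)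
        (AddSubgroup.zsmul_mem _ (sum_mem fun i _ => c.mem_cl i) ε)
    · intro j
      rw [map_sub, map_zsmul, map_sum, Finset.sum_congr rfl (fun i _ => c.be j i), hval j,
        Finset.sum_ite_eq', smul_eq_mul]
      split_ifs <;> ring
    · intro ψ hψ ho
      rw [map_sub, map_zsmul, map_sum, horth ψ hψ ho, Finset.sum_eq_zero, smul_zero, sub_zero]
      intro i _
      rw [map_sub, ho.2.1 i, ho.1, sub_zero]
  have hfin : ∀ ν : Fin r → ℤ, μ = ε • ν → μ = ν ∨ μ = -ν := by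
    intro ν h1
    rcases hε with h2 | h2
    · left; rw [h1, h2, one_smul]
    · right; rw [h1, h2, neg_smul, one_smul]
  rcases arith1 (by exact_mod_cast ha1) (by exact_mod_cast ha2) hle with h1 | h1 | h1
  · left
    have h2 : A.card = 1 := by exact_mod_cast h1
    obtain ⟨i, hi⟩ := Finset.card_eq_one.1 h2
    rw [hi, Finset.sum_singleton] at hμA
    exact ⟨i, hfin _ hμA⟩
  · right
    have h2 : A.card = n := by exact_mod_cast h1
    have h3 : A = Finset.univ := by
      apply Finset.eq_univ_of_card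
      rw [h2, Fintype.card_fin]
    rw [h3, c.sum_eq] at hμA
    rcases hfin _ hμA with h4 | h4
    · exact Or.inl h4
    · exact Or.inr (Or.inl h4)
  · right; right; right
    obtain ⟨h3, h4⟩ := h1
    have h5 : A.card = 2 := by exact_mod_cast h4
    obtain ⟨i, j, hij, hAij⟩ := Finset.card_eq_two.1 h5
    rw [hAij, Finset.sum_pair hij] at hμA
    exact ⟨by exact_mod_cast h3, i, j, hij, hfin _ hμA⟩

end KS

end Vale.Agent.P280.N.H989
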