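import Vale.Agent.P280.N.D02
import Vale.Agent.P280.N.B05
import Vale.Agent.P280.H989.RSClass

/-! P280, plan N, stage 2: the structure of an interior weight. -/

open DirectSum Vale.Agent.P280.T Vale.Agent.P280.H127
namespace Vale.Agent.P280.N.H989

variable {r : ℕ} {R : Type} [CommRing R] [IsDomain R] [Algebra ℂ R]
  {𝒜 : ℕ × (Fin r → ℤ) → Submodule ℂ R} [GradedAlgebra 𝒜]

omit [IsDomain R] in
theorem vx_finite (H : Hyp 𝒜) : {χ : Fin r → ℤ | Vx 𝒜 χ}.Finite :=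
  (C07.wt_finite H).subset fun _ h => h.1

/-- The vertices, as a finite set. -/
noncomputable def VV (H : Hyp 𝒜) : Finset (Fin r → ℤ) := (vx_finite H).toFinset

theorem mem_VV (H : Hyp 𝒜) {χ : Fin r → ℤ} : χ ∈ VV H ↔ Vx 𝒜 χ := by
  simp [VV]

theorem exists_root_data (H : Hyp 𝒜) : ∃ (N : ℤ) (b : (Fin r → ℤ) → ((Fin r → ℤ) →+ ℤ))
    (E F : (Fin r → ℤ) → VF R), 0 < N ∧ ∀ χ, Vx 𝒜 χ → Root 𝒜 N χ (b χ) (E χ) (F χ) := by
  classical
  obtain ⟨N, β, E, F, hN, hr⟩ := exists_roots H (ι := {χ : Fin r → ℤ // χ ∈ VV H})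
    (fun χ => χ.1) (fun χ => (mem_VV H).1 χ.2)
  refine ⟨N, fun χ => if h : χ ∈ VV H then β ⟨χ, h⟩ else 0,
    fun χ => if h : χ ∈ VV H then E ⟨χ, h⟩ else 0,
    fun χ => if h : χ ∈ VV H then F ⟨χ, h⟩ else 0, hN, fun χ hχ => ?_⟩
  have h := (mem_VV H).2 hχ
  simpa [h] using hr ⟨χ, h⟩

theorem exists_RS (H : Hyp 𝒜) {N : ℤ} {b : (Fin r → ℤ) → ((Fin r → ℤ) →+ ℤ)}
    {E F : (Fin r → ℤ) → VF R} (hN : 0 < N)
    (hr : ∀ χ, Vx 𝒜 χ → Root 𝒜 N χ (b χ) (E χ) (F χ)) :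
    RS (VV H) {ω | Wt 𝒜 ω} b N where
  N0 := hN
  two χ hχ := (hr χ ((mem_VV H).1 hχ)).two
  dvd χ hχ ω hω := (hr χ ((mem_VV H).1 hχ)).int ω hω
  bd χ hχ ω hω h1 h2 := by
    exact (hr χ ((mem_VV H).1 hχ)).bd ω hω h1 h2
  sub χ hχ := ((mem_VV H).1 hχ).1
  refl χ hχ ψ hψ k hk :=
    (mem_VV H).2 (reflect_vertex H hN ((mem_VV H).1 hχ) (hr χ ((mem_VV H).1 hχ))
      ((mem_VV H).1 hψ) hk)
  ext g a ha hg ω hω := by
    obtain ⟨ω', hω', hmax⟩ := D02.exists_max H g ⟨ω, hω⟩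
    by_contra hcon
    push Not at hcon
    have h1 : 0 < g ω' := lt_of_le_of_lt ha (lt_of_lt_of_le hcon (hmax ω hω))
    obtain ⟨χ, hχ, hχ1, -⟩ := max_at_vertex H g h1 hmax ⟨ω', hω', rfl⟩ 0
    have h2 := hg χ ((mem_VV H).2 hχ)
    have h3 := hmax ω hω
    linarith

/-- The structure of an interior weight `lam`: the vertices `lam + e j`, the roots of the vertices,
`∑ e j = lam`, and the list of all weights. -/
structure Chain (𝒜 : ℕ × (Fin r → ℤ) → Submodule ℂ R) (N : ℤ) (lam : Fin r → ℤ) (n : ℕ)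
    (e : Fin n → Fin r → ℤ) (β : Fin n → ((Fin r → ℤ) →+ ℤ)) (E F : Fin n → VF R) : Prop where
  N0 : 0 < N
  n2 : 2 ≤ n
  wt : Wt 𝒜 lam
  vx : ∀ j, Vx 𝒜 (lam + e j)
  root : ∀ j, Root 𝒜 N (lam + e j) (β j) (E j) (F j)
  bl : ∀ j, β j lam = N
  be : ∀ j i, β j (e i) = if i = j then N else 0
  sum : ∑ j, e j = lam
  rt : ∀ i j, i ≠ j → Vx 𝒜 (e i - e j)
  S : ∀ μ, Wt 𝒜 μ → (∀ j, β j μ = 0) ∨ (∃ j, μ = lam + e j ∨ μ = -(lam + e j)) ∨
    (∃ i j, i ≠ j ∧ μ = e i - e j) ∨ (∃ j, μ = e j ∨ μ = -e j) ∨ μ = lam ∨ μ = -lam ∨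
    (n = 3 ∧ ∃ i j, i ≠ j ∧ (μ = e i + e j ∨ μ = -(e i + e j)))

/-- With `n = 1` there is no interior weight. -/
theorem two_le (H : Hyp 𝒜) {N : ℤ} (hN : 0 < N) {lam χ : Fin r → ℤ} (hw : Wt 𝒜 lam)
    {β : (Fin r → ℤ) →+ ℤ} {E F : VF R} (hr : Root 𝒜 N χ β E F) (h : χ = (-2 : ℤ) • lam) :
    False := by
  have h0 : lam ≠ 0 := c03_wt_ne_zero H hw
  obtain ⟨y, hy⟩ := hw
  have hz : ∀ k : ℤ, k • lam = 0 → k = 0 := fun k hk =>
    (smul_eq_zero.1 hk).resolve_right h0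
  have key : ∀ k : ℤ, k ≠ 0 → k ≠ 1 → ¬ y.Pi (k • lam) := by
    intro k hk hk1 hp
    have h1 := H.ind y.q y.ν lam (k • lam) y.nv y.fix hy hp ⟨k, 1, hk, one_ne_zero, by simp⟩
    have h2 : (k - 1) • lam = 0 := by rw [sub_smul, one_smul, ← h1, sub_self]
    have h3 := hz _ h2
    omega
  have hβ : 2 * β lam = -(2 * N) := by
    have h1 := hr.two
    rw [h, map_zsmul, smul_eq_mul] at h1
    linarith
  refine key (-1) (by norm_num) (by norm_num) ?_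
  have h3 : lam + χ = (-1 : ℤ) • lam := by rw [h]; module
  rw [← h3]
  refine nef_string H hN hr y ?_ hy ?_ ?_ (by linarith)
  · have h4 : -χ = (2 : ℤ) • lam := by rw [h]; module
    rw [h4]
    exact key 2 (by norm_num) (by norm_num)
  · intro k hk
    have h4 : (1 + 2 * k) • lam = 0 := by
      have h5 : (1 + 2 * k) • lam = lam - k • χ := by rw [h]; module
      rw [h5, ← hk, sub_self]
    have h5 := hz _ h4
    omega
  · have h4 : lam - χ = (3 : ℤ) • lam := by rw [h]; module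
    rw [h4]
    exact key 3 (by norm_num) (by norm_num)

theorem exists_chain (H : Hyp 𝒜) {lam : Fin r → ℤ} (hw : Wt 𝒜 lam)
    (hint : ∀ l : (Fin r → ℤ) →+ ℤ, 0 < l lam → ∃ ω, Wt 𝒜 ω ∧ l lam < l ω) :
    ∃ (N : ℤ) (n : ℕ) (e : Fin n → Fin r → ℤ) (β : Fin n → ((Fin r → ℤ) →+ ℤ))
      (E F : Fin n → VF R), Chain 𝒜 N lam n e β E F := by
  obtain ⟨N, b, E, F, hN, hr⟩ := exists_root_data H
  have hRS := exists_RS H hN hr
  have hlV : lam ∉ VV H := by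
    intro h
    obtain ⟨-, l, hl0, hl⟩ := (mem_VV H).1 h
    obtain ⟨ω, hω, hω1⟩ := hint l hl0
    by_cases hc : ω = lam
    · exact absurd hω1 (by rw [hc]; exact lt_irrefl _)
    · exact absurd (hl ω hω hc) (not_lt.2 hω1.le)
  obtain ⟨n, χ, c⟩ := exists_KS hRS (W := {ω | Wt 𝒜 ω}) hw hlV hint
  have h0 : lam ≠ 0 := c03_wt_ne_zero H hw
  have h1 := c.one_le h0
  have hvx : ∀ j, Vx 𝒜 (χ j) := fun j => (mem_VV H).1 (c.mem j)
  have he : ∀ j, lam + (χ j - lam) = χ j := fun j => by abel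
  have hn2 : 2 ≤ n := by
    by_contra hcon
    have hn : n = 1 := by omega
    subst hn
    have hs := c.sum_eq
    rw [Fin.sum_univ_one] at hs
    refine two_le H hN hw (hr _ (c03_vx_neg H (hvx 0))) ?_
    have h4 : χ 0 = lam + lam := by rw [← sub_eq_iff_eq_add]; exact hs
    rw [h4]
    module
  refine ⟨N, n, fun j => χ j - lam, fun j => b (χ j), fun j => E (χ j), fun j => F (χ j),
    { N0 := hN
      n2 := hn2
      wt := hw
      vx := fun j => by rw [he]; exact hvx j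
      root := fun j => by rw [he]; exact hr _ (hvx j)
      bl := c.bl
      be := c.be
      sum := c.sum_eq
      rt := fun i j hij => by
        have h2 : χ i - lam - (χ j - lam) = χ i - χ j := by abel
        rw [h2]
        exact (mem_VV H).1 (c.diff_mem hij)
      S := fun μ hμ => ?_ }⟩
  have h2 : ∀ i j, χ i - lam - (χ j - lam) = χ i - χ j := fun i j => by abel
  simp only [he, h2]
  exact c.class_W hn2 hμ

end Vale.Agent.P280.N.H989
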