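import Vale.Agent.P280.N.B01
import Vale.Agent.P280.H155.Nef0
import Vale.Agent.P280.H490.Rev
import Vale.Agent.P280.H989.Chain

/-! P280, plan N, stage 2: the component of an interior weight, symmetric form. -/

open DirectSum Vale.Agent.P280.T Vale.Agent.P280.H127
namespace Vale.Agent.P280.N.H989

variable {r : ℕ} {R : Type} [CommRing R] [IsDomain R] [Algebra ℂ R]
  {𝒜 : ℕ × (Fin r → ℤ) → Submodule ℂ R} [GradedAlgebra 𝒜]

/-- The negative of a weight is a weight. -/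
theorem wt_neg (H : Hyp 𝒜) {μ : Fin r → ℤ} (hμ : Wt 𝒜 μ) : Wt 𝒜 (-μ) := by
  obtain ⟨y, hy⟩ := hμ
  obtain ⟨y', n, φ, hφ⟩ := exists_curve H y hy
  exact ⟨y', hφ.ya'⟩

/-- A weight of a point is found, up to multiples of `a`, at the other end of a curve. -/
theorem curve_wt (H : Hyp 𝒜) {y y' : FP 𝒜} {a : Fin r → ℤ} {n : ℕ}
    {φ : R →ₐ[ℂ] Polynomial ℂ} (hφ : Curve y y' a n φ) {μ : Fin r → ℤ}
    (hμ : ∀ k : ℤ, μ ≠ k • a) (hp : y'.Pi μ) : ∃ k : ℕ, y.Pi (μ + (k : ℤ) • a) := by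
  obtain ⟨t, ht, htw, ht0⟩ := hp
  obtain ⟨δ, hδ, hdeg, hval⟩ := H490.exists_lift H hφ ht htw
  have hne : ∃ h, δ h ≠ 0 := by
    obtain ⟨d, m, h, hh, h1⟩ := ht0 0
    refine ⟨h, fun h0 => h1 ?_⟩
    rw [← hval d m h hh, h0]
    simp
  obtain ⟨k, -, -, -, hk⟩ := along_pi hφ.ev hδ
    (fun d m h hh h0 => by
      obtain ⟨i, -, h1, h2⟩ := hdeg d m h hh h0
      exact ⟨i, h1, h2⟩) hμ hne (j := 0) (fun h i hi => absurd hi (Nat.not_lt_zero i))
  exact ⟨k, hk⟩

/-- The weights are stable under the reflections. -/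
theorem reflect_wt (H : Hyp 𝒜) {N : ℤ} (hN : 0 < N) {χ : Fin r → ℤ} {β : (Fin r → ℤ) →+ ℤ}
    {E F : VF R} (hr : Root 𝒜 N χ β E F) {μ : Fin r → ℤ} (hμ : Wt 𝒜 μ) (hβ : β μ = -N) :
    Wt 𝒜 (μ + χ) := by
  obtain ⟨y, hy⟩ := hμ
  have hneg : β μ < 0 := by omega
  have key : ∀ y : FP 𝒜, ¬ y.Pi (-χ) → y.Pi μ → Wt 𝒜 (μ + χ) := fun y h1 h2 =>
    ⟨y, H155.nef_string0 H hN (H155.toRoot0 hr) hr.int y h1 h2 hneg⟩
  by_cases hna : y.Pi (-χ)
  · obtain ⟨y1, m, φ, hφ⟩ := exists_curve H y hna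
    obtain ⟨φ', hφ', -⟩ := H490.exists_rev H hφ
    have hmul : ∀ k : ℤ, μ ≠ k • χ := by
      intro k hk
      have h1 : β μ = k * (2 * N) := by rw [hk, map_zsmul, hr.two, smul_eq_mul]
      have h2 : (2 * k + 1) * N = 0 := by linear_combination -h1 + hβ
      rcases mul_eq_zero.1 h2 with h3 | h3 <;> omega
    obtain ⟨k, hk⟩ := curve_wt H hφ' (μ := μ) (fun k hk => hmul k (by simpa using hk)) hy
    rw [neg_neg] at hk
    have h1 : β (μ + (k : ℤ) • χ) = -N + k * (2 * N) := by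
      rw [map_add, map_zsmul, hr.two, hβ, smul_eq_mul]
    have h2 := hr.bd _ ⟨y1, hk⟩
      (fun h => hmul (1 - k) ((eq_sub_of_add_eq h).trans (by rw [sub_smul, one_smul])))
      (fun h => hmul (-1 - k)
        ((eq_sub_of_add_eq h).trans (by rw [sub_smul, neg_smul, one_smul])))
    rw [h1, abs_le] at h2
    have h3 : (k : ℤ) ≤ 1 := by nlinarith [h2.2]
    have h4 : k = 0 ∨ k = 1 := by omega
    have h5 : y1.Pi χ := by simpa using hφ.ya'
    rcases h4 with rfl | rfl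
    · refine key y1 (H170.not_pi_neg H h5) ?_
      simpa using hk
    · exact ⟨y1, by simpa using hk⟩
  · exact key y hna hy

/-- The component of an interior weight. -/
structure AC (𝒜 : ℕ × (Fin r → ℤ) → Submodule ℂ R) (N : ℤ) (n : ℕ) (f : Fin (n + 1) → Fin r → ℤ)
    (β : Fin (n + 1) → Fin (n + 1) → ((Fin r → ℤ) →+ ℤ)) (E F : Fin (n + 1) → Fin (n + 1) → VF R) :
    Prop where
  N0 : 0 < N
  n2 : 2 ≤ n
  sum : ∑ i, f i = 0
  wt : ∀ i, Wt 𝒜 (f i)
  wtn : ∀ i, Wt 𝒜 (-f i)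
  vx : ∀ i j, i ≠ j → Vx 𝒜 (f i - f j)
  root : ∀ i j, i ≠ j → Root 𝒜 N (f i - f j) (β i j) (E i j) (F i j)
  be : ∀ i j k, i ≠ j → β i j (f k) = (if k = i then N else 0) - (if k = j then N else 0)
  anti : ∀ i j, i ≠ j → ∀ μ, Wt 𝒜 μ → β j i μ = -β i j μ
  add : ∀ i j k, i ≠ j → j ≠ k → i ≠ k → ∀ μ, Wt 𝒜 μ → β i k μ = β i j μ + β j k μ
  S : ∀ μ, Wt 𝒜 μ → (∀ i j, i ≠ j → β i j μ = 0) ∨ (∃ i j, i ≠ j ∧ μ = f i - f j) ∨
    (∃ i, μ = f i ∨ μ = -f i) ∨ (n = 3 ∧ ∃ i j, i ≠ j ∧ μ = f i + f j)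

section
variable {N : ℤ} {n : ℕ} {f : Fin (n + 1) → Fin r → ℤ}
  {β : Fin (n + 1) → Fin (n + 1) → ((Fin r → ℤ) →+ ℤ)} {E F : Fin (n + 1) → Fin (n + 1) → VF R}

theorem AC.perm (h : AC 𝒜 N n f β E F) (σ : Equiv.Perm (Fin (n + 1))) :
    AC 𝒜 N n (fun i => f (σ i)) (fun i j => β (σ i) (σ j)) (fun i j => E (σ i) (σ j))
      (fun i j => F (σ i) (σ j)) where
  N0 := h.N0
  n2 := h.n2
  sum := by rw [Equiv.sum_comp σ f]; exact h.sum
  wt i := h.wt _
  wtn i := h.wtn _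
  vx i j hij := h.vx _ _ (σ.injective.ne hij)
  root i j hij := h.root _ _ (σ.injective.ne hij)
  be i j k hij := by
    rw [h.be _ _ _ (σ.injective.ne hij)]
    simp only [σ.injective.eq_iff]
  anti i j hij := h.anti _ _ (σ.injective.ne hij)
  add i j k h1 h2 h3 := h.add _ _ _ (σ.injective.ne h1) (σ.injective.ne h2) (σ.injective.ne h3)
  S μ hμ := by
    rcases h.S μ hμ with h1 | ⟨i, j, hij, h1⟩ | ⟨i, h1⟩ | ⟨hn, i, j, hij, h1⟩
    · exact Or.inl fun i j hij => h1 _ _ (σ.injective.ne hij)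
    · refine Or.inr (Or.inl ⟨σ.symm i, σ.symm j, σ.symm.injective.ne hij, ?_⟩)
      simpa using h1
    · refine Or.inr (Or.inr (Or.inl ⟨σ.symm i, ?_⟩))
      simpa using h1
    · refine Or.inr (Or.inr (Or.inr ⟨hn, σ.symm i, σ.symm j, σ.symm.injective.ne hij, ?_⟩))
      simpa using h1

/-- For `n = 3` the sum of two letters is the negative of the sum of the two others. -/
theorem AC.four {f : Fin 4 → Fin r → ℤ} (hs : ∑ i, f i = 0) (i j : Fin 4) (hij : i ≠ j) :
    ∃ k l : Fin 4, k ≠ l ∧ -(f i + f j) = f k + f l := by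
  rw [Fin.sum_univ_four] at hs
  have key : ∀ k l : Fin 4, (f i + f j) + (f k + f l) = f 0 + f 1 + f 2 + f 3 →
      -(f i + f j) = f k + f l := fun k l h => neg_eq_of_add_eq_zero_right (h.trans hs)
  fin_cases i <;> fin_cases j
  · exact absurd rfl hij
  · exact ⟨2, 3, by decide, key _ _ (by change f 0 + f 1 + (f 2 + f 3) = _; abel)⟩
  · exact ⟨1, 3, by decide, key _ _ (by change f 0 + f 2 + (f 1 + f 3) = _; abel)⟩
  · exact ⟨1, 2, by decide, key _ _ (by change f 0 + f 3 + (f 1 + f 2) = _; abel)⟩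
  · exact ⟨2, 3, by decide, key _ _ (by change f 1 + f 0 + (f 2 + f 3) = _; abel)⟩
  · exact absurd rfl hij
  · exact ⟨0, 3, by decide, key _ _ (by change f 1 + f 2 + (f 0 + f 3) = _; abel)⟩
  · exact ⟨0, 2, by decide, key _ _ (by change f 1 + f 3 + (f 0 + f 2) = _; abel)⟩
  · exact ⟨1, 3, by decide, key _ _ (by change f 2 + f 0 + (f 1 + f 3) = _; abel)⟩
  · exact ⟨0, 3, by decide, key _ _ (by change f 2 + f 1 + (f 0 + f 3) = _; abel)⟩
  · exact absurd rfl hij
  · exact ⟨0, 1, by decide, key _ _ (by change f 2 + f 3 + (f 0 + f 1) = _; abel)⟩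
  · exact ⟨1, 2, by decide, key _ _ (by change f 3 + f 0 + (f 1 + f 2) = _; abel)⟩
  · exact ⟨0, 2, by decide, key _ _ (by change f 3 + f 1 + (f 0 + f 2) = _; abel)⟩
  · exact ⟨0, 1, by decide, key _ _ (by change f 3 + f 2 + (f 0 + f 1) = _; abel)⟩
  · exact absurd rfl hij

theorem AC.neg (h : AC 𝒜 N n f β E F) :
    AC 𝒜 N n (fun i => -f i) (fun i j => β j i) (fun i j => E j i) (fun i j => F j i) where
  N0 := h.N0
  n2 := h.n2
  sum := by rw [Finset.sum_neg_distrib, h.sum, neg_zero]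
  wt i := h.wtn i
  wtn i := by rw [neg_neg]; exact h.wt i
  vx i j hij := by
    rw [neg_sub_neg]
    exact h.vx j i hij.symm
  root i j hij := by
    rw [neg_sub_neg]
    exact h.root j i hij.symm
  be i j k hij := by
    rw [map_neg, h.be j i k hij.symm]
    ring
  anti i j hij := h.anti j i hij.symm
  add i j k h1 h2 h3 μ hμ := by
    rw [h.add k j i h2.symm h1.symm h3.symm μ hμ]
    ring
  S μ hμ := by
    rcases h.S μ hμ with h1 | ⟨i, j, hij, h1⟩ | ⟨i, h1⟩ | ⟨hn, i, j, hij, h1⟩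
    · exact Or.inl fun i j hij => h1 _ _ hij.symm
    · refine Or.inr (Or.inl ⟨j, i, hij.symm, ?_⟩)
      rw [h1]; abel
    · refine Or.inr (Or.inr (Or.inl ⟨i, ?_⟩))
      rw [neg_neg]
      exact h1.symm
    · subst hn
      obtain ⟨k, l, hkl, h2⟩ := AC.four h.sum i j hij
      refine Or.inr (Or.inr (Or.inr ⟨rfl, k, l, hkl, ?_⟩))
      rw [h1, ← neg_add, ← h2, neg_neg]

end

theorem exists_AC (H : Hyp 𝒜) {lam : Fin r → ℤ} (hw : Wt 𝒜 lam)
    (hint : ∀ l : (Fin r → ℤ) →+ ℤ, 0 < l lam → ∃ ω, Wt 𝒜 ω ∧ l lam < l ω) :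
    ∃ (N : ℤ) (n : ℕ) (f : Fin (n + 1) → Fin r → ℤ)
      (β : Fin (n + 1) → Fin (n + 1) → ((Fin r → ℤ) →+ ℤ)) (E F : Fin (n + 1) → Fin (n + 1) → VF R),
      AC 𝒜 N n f β E F ∧ f (Fin.last n) = -lam := by
  obtain ⟨N, b, E, F, hN, hr⟩ := exists_root_data H
  have hRS := exists_RS H hN hr
  have hlV : lam ∉ VV H := by
    intro h
    obtain ⟨-, l, hl0, hl⟩ := (mem_VV H).1 h
    obtain ⟨ω, hω, hω1⟩ := hint l hl0
    by_cases hc : ω = lam
    · exact absurd hω1 (by rw [hc]; exact lt_irrefl _)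
    · exact absurd (hl ω hω hc) (not_lt.2 hω1.le)
  obtain ⟨n, χ, c⟩ := exists_KS hRS (W := {ω | Wt 𝒜 ω}) hw hlV hint
  have h0 : lam ≠ 0 := c03_wt_ne_zero H hw
  have h1 := c.one_le h0
  have hvx : ∀ j, Vx 𝒜 (χ j) := fun j => (mem_VV H).1 (c.mem j)
  have hn2 : 2 ≤ n := by
    by_contra hcon
    have hn : n = 1 := by omega
    subst hn
    have hs := c.sum_eq
    rw [Fin.sum_univ_one] at hs
    refine two_le H hN hw (hr _ (c03_vx_neg H (hvx 0))) ?_
    have h4 : χ 0 = lam + lam := by rw [← sub_eq_iff_eq_add]; exact hs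
    rw [h4]
    module
  -- the letters
  obtain ⟨f, hf1, hf2⟩ : ∃ f : Fin (n + 1) → Fin r → ℤ, (∀ j : Fin n, f j.castSucc = χ j - lam) ∧
      f (Fin.last n) = -lam :=
    ⟨Fin.snoc (fun j => χ j - lam) (-lam), fun j => by simp [Fin.snoc_castSucc], by simp⟩
  obtain ⟨g, hg1, hg2⟩ : ∃ g : Fin (n + 1) → ((Fin r → ℤ) →+ ℤ),
      (∀ j : Fin n, g j.castSucc = b (χ j)) ∧ g (Fin.last n) = 0 :=
    ⟨Fin.snoc (fun j => b (χ j)) 0, fun j => by simp [Fin.snoc_castSucc], by simp⟩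
  have hd : ∀ i j : Fin n, f i.castSucc - f j.castSucc = χ i - χ j := fun i j => by
    rw [hf1, hf1]; abel
  have hdl : ∀ i : Fin n, f i.castSucc - f (Fin.last n) = χ i := fun i => by
    rw [hf1, hf2]; abel
  have hld : ∀ i : Fin n, f (Fin.last n) - f i.castSucc = -χ i := fun i => by
    rw [hf1, hf2]; abel
  have hvxf : ∀ i j, i ≠ j → Vx 𝒜 (f i - f j) := by
    intro i j hij
    induction i using Fin.lastCases with
    | last =>
      induction j using Fin.lastCases with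
      | last => exact absurd rfl hij
      | cast j => rw [hld]; exact c03_vx_neg H (hvx j)
    | cast i =>
      induction j using Fin.lastCases with
      | last => rw [hdl]; exact hvx i
      | cast j =>
        rw [hd]
        exact (mem_VV H).1 (c.diff_mem (fun h => hij (by rw [h])))
  have hval : ∀ i j, i ≠ j → ∀ μ, Wt 𝒜 μ → b (f i - f j) μ = g i μ - g j μ := by
    intro i j hij μ hμ
    induction i using Fin.lastCases with
    | last =>
      induction j using Fin.lastCases with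
      | last => exact absurd rfl hij
      | cast j =>
        rw [hld, hg2, hg1, hRS.neg_b (c.mem j) hμ, AddMonoidHom.zero_apply, zero_sub]
    | cast i =>
      induction j using Fin.lastCases with
      | last => rw [hdl, hg1, hg2, AddMonoidHom.zero_apply, sub_zero]
      | cast j =>
        rw [hd, c.diff_b (fun h => hij (by rw [h])) hμ, hg1, hg1]
  have hlast : Wt 𝒜 (f (Fin.last n)) := by rw [hf2]; exact wt_neg H hw
  have hwt : ∀ i, Wt 𝒜 (f i) := by
    intro i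
    induction i using Fin.lastCases with
    | last => exact hlast
    | cast i =>
      rw [hf1]
      have h2 := reflect_wt H hN (hr _ (hvx i)) (wt_neg H hw) (by rw [map_neg, c.bl])
      rwa [neg_add_eq_sub] at h2
  have hgf : ∀ i k, g i (f k) = (if k = i then N else 0) - (if k = Fin.last n then N else 0) := by
    intro i k
    induction i using Fin.lastCases with
    | last => rw [hg2, AddMonoidHom.zero_apply, sub_self]
    | cast i =>
      rw [hg1]
      induction k using Fin.lastCases with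
      | last =>
        rw [hf2, map_neg, c.bl, if_neg (Fin.castSucc_lt_last i).ne', if_pos rfl, zero_sub]
      | cast k =>
        rw [hf1, c.be, if_neg (Fin.castSucc_lt_last k).ne, sub_zero]
        simp only [Fin.castSucc_inj]
  refine ⟨N, n, f, fun i j => b (f i - f j), fun i j => E (f i - f j), fun i j => F (f i - f j),
    { N0 := hN
      n2 := hn2
      sum := ?_
      wt := hwt
      wtn := fun i => wt_neg H (hwt i)
      vx := hvxf
      root := fun i j hij => hr _ (hvxf i j hij)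
      be := fun i j k hij => by
        rw [hval i j hij _ (hwt k), hgf, hgf]
        ring
      anti := fun i j hij μ hμ => by
        rw [hval i j hij μ hμ, hval j i hij.symm μ hμ]
        ring
      add := fun i j k h1 h2 h3 μ hμ => by
        rw [hval i j h1 μ hμ, hval j k h2 μ hμ, hval i k h3 μ hμ]
        ring
      S := fun μ hμ => ?_ }, hf2⟩
  · rw [Fin.sum_univ_castSucc, hf2]
    simp only [hf1]
    rw [c.sum_eq, add_neg_cancel]
  · rcases c.class_W hn2 hμ with h2 | ⟨j, h2 | h2⟩ | ⟨i, j, hij, h2⟩ | ⟨j, h2 | h2⟩ | h2 | h2 |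
      ⟨hn, i, j, hij, h2 | h2⟩
    · refine Or.inl fun i j hij => ?_
      have h3 : ∀ i, g i μ = 0 := by
        intro i
        induction i using Fin.lastCases with
        | last => rw [hg2, AddMonoidHom.zero_apply]
        | cast i => rw [hg1, h2]
      rw [hval i j hij μ hμ, h3, h3, sub_zero]
    · exact Or.inr (Or.inl ⟨_, _, (Fin.castSucc_lt_last j).ne, by rw [hdl, h2]⟩)
    · exact Or.inr (Or.inl ⟨_, _, (Fin.castSucc_lt_last j).ne', by rw [hld, h2]⟩)
    · exact Or.inr (Or.inl ⟨i.castSucc, j.castSucc, (Fin.castSucc_injective n).ne hij,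
        by rw [hd, h2]⟩)
    · exact Or.inr (Or.inr (Or.inl ⟨j.castSucc, Or.inl (by rw [hf1, h2])⟩))
    · exact Or.inr (Or.inr (Or.inl ⟨j.castSucc, Or.inr (by rw [hf1, h2])⟩))
    · exact Or.inr (Or.inr (Or.inl ⟨Fin.last n, Or.inr (by rw [hf2, h2, neg_neg])⟩))
    · exact Or.inr (Or.inr (Or.inl ⟨Fin.last n, Or.inl (by rw [hf2, h2])⟩))
    · exact Or.inr (Or.inr (Or.inr ⟨hn, i.castSucc, j.castSucc,
        (Fin.castSucc_injective n).ne hij, by rw [hf1, hf1, h2]⟩))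
    · have hs : ∑ i, f i = 0 := by
        rw [Fin.sum_univ_castSucc, hf2]
        simp only [hf1]
        rw [c.sum_eq, add_neg_cancel]
      have h3 : μ = -(f i.castSucc + f j.castSucc) := by rw [hf1, hf1, h2]
      have h4 : ∀ (hn : n = 3), ∃ k l : Fin (n + 1), k ≠ l ∧
          -(f i.castSucc + f j.castSucc) = f k + f l := by
        rintro rfl
        exact AC.four hs _ _ ((Fin.castSucc_injective 3).ne hij)
      obtain ⟨k, l, hkl, h5⟩ := h4 hn
      exact Or.inr (Or.inr (Or.inr ⟨hn, k, l, hkl, h3.trans h5⟩))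

end Vale.Agent.P280.N.H989
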