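import Vale.Agent.P280.H989.AC

/-! P280, plan N, stage 2: one chamber for all components. -/

open DirectSum Vale.Agent.P280.T Vale.Agent.P280.H127
namespace Vale.Agent.P280.N.H989

variable {r : ℕ} {R : Type} [CommRing R] [IsDomain R] [Algebra ℂ R]
  {𝒜 : ℕ × (Fin r → ℤ) → Submodule ℂ R} [GradedAlgebra 𝒜]

section
variable {N : ℤ} {n : ℕ} {f : Fin (n + 1) → Fin r → ℤ}
  {β : Fin (n + 1) → Fin (n + 1) → ((Fin r → ℤ) →+ ℤ)} {E F : Fin (n + 1) → Fin (n + 1) → VF R}

omit [GradedAlgebra 𝒜] in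
/-- `β i j` on a vector written in the letters. -/
theorem AC.be_sum (h : AC 𝒜 N n f β E F) (w : Fin (n + 1) → ℤ) {i j : Fin (n + 1)} (hij : i ≠ j) :
    β i j (∑ k, w k • f k) = (w i - w j) * N := by
  rw [map_sum]
  simp only [map_zsmul, smul_eq_mul, h.be i j _ hij, mul_sub, mul_ite, mul_zero]
  rw [Finset.sum_sub_distrib, Finset.sum_ite_eq' Finset.univ i fun k => w k * N,
    Finset.sum_ite_eq' Finset.univ j fun k => w k * N, if_pos (Finset.mem_univ _),
    if_pos (Finset.mem_univ _)]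
  ring

omit [GradedAlgebra 𝒜] in
/-- A vector in the span of the letters on which all `β i j` vanish, if the sum of the coordinates
is small. -/
theorem AC.eq_zero_of_be (h : AC 𝒜 N n f β E F) {w : Fin (n + 1) → ℤ}
    (hw : ∀ i j, i ≠ j → β i j (∑ k, w k • f k) = 0) : ∃ κ : ℤ, (∀ i, w i = κ) ∧
      ∑ i, w i = (n + 1) * κ ∧ ∑ k, w k • f k = 0 := by
  have hN := h.N0
  have h1 : ∀ i, w i = w 0 := by
    intro i
    by_cases hi : i = 0
    · rw [hi]
    · have h2 := hw i 0 hi
      rw [h.be_sum w hi] at h2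
      rcases mul_eq_zero.1 h2 with h3 | h3 <;> omega
  refine ⟨w 0, h1, ?_, ?_⟩
  · rw [Finset.sum_congr rfl fun i _ => h1 i, Finset.sum_const, Finset.card_univ,
      Fintype.card_fin, nsmul_eq_mul]
    push_cast
    ring
  · rw [Finset.sum_congr rfl fun i _ => by rw [h1 i], ← Finset.smul_sum, h.sum, smul_zero]

omit [GradedAlgebra 𝒜] in
/-- A letter is in the interior. -/
theorem AC.int (h : AC 𝒜 N n f β E F) (i : Fin (n + 1)) (l : (Fin r → ℤ) →+ ℤ)
    (hl : 0 < l (f i)) : ∃ j, i ≠ j ∧ l (f i) < l (f i - f j) := by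
  by_contra hcon
  push Not at hcon
  have h1 : ∀ j ∈ Finset.univ.erase i, 0 ≤ l (f j) := by
    intro j hj
    have h2 := hcon j (Finset.ne_of_mem_erase hj).symm
    rw [map_sub] at h2
    linarith
  have h2 : ∑ j, l (f j) = 0 := by rw [← map_sum, h.sum, map_zero]
  rw [← Finset.add_sum_erase _ _ (Finset.mem_univ i)] at h2
  have h3 := Finset.sum_nonneg h1
  linarith

omit [GradedAlgebra 𝒜] in
theorem AC.inj (h : AC 𝒜 N n f β E F) : Function.Injective f := by
  intro i j hij
  by_contra hne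
  have h1 := h.be i j i hne
  have h2 := h.be i j j hne
  rw [if_pos rfl, if_neg hne] at h1
  rw [if_neg (Ne.symm hne), if_pos rfl] at h2
  rw [hij, h2] at h1
  have := h.N0
  omega

/-- A weight which is orthogonal to the component is not in the span of the letters. -/
theorem AC.other_span (h : AC 𝒜 N n f β E F) (H : Hyp 𝒜) {o : Fin r → ℤ} (ho : Wt 𝒜 o)
    (h0 : ∀ i j, i ≠ j → β i j o = 0) (hs : o ∈ Submodule.span ℤ (Set.range f)) : False := by
  obtain ⟨w, rfl⟩ := (Submodule.mem_span_range_iff_exists_fun ℤ).1 hs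
  obtain ⟨κ, -, -, h1⟩ := h.eq_zero_of_be h0
  exact c03_wt_ne_zero H ho h1

theorem mem_sp (f : Fin (n + 1) → Fin r → ℤ) (i : Fin (n + 1)) :
    f i ∈ Submodule.span ℤ (Set.range f) :=
  Submodule.subset_span ⟨i, rfl⟩

theorem four_letters : ∀ i j : Fin 4, i ≠ j → ∃ k l : Fin 4, k ≠ l ∧ k ≠ i ∧ k ≠ j ∧ l ≠ i ∧
    l ≠ j ∧ (Finset.univ : Finset (Fin 4)) = {i, j, k, l} := by
  decide

/-- For `n = 3` twice the sum of two letters is the sum of two roots. -/
theorem AC.mid {f : Fin 4 → Fin r → ℤ} (hs : ∑ i, f i = 0) {i j : Fin 4} (hij : i ≠ j) :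
    ∃ k l : Fin 4, k ≠ l ∧ k ≠ i ∧ k ≠ j ∧ l ≠ i ∧ l ≠ j ∧
      (f i - f k) + (f j - f l) = (f i + f j) + (f i + f j) := by
  obtain ⟨k, l, h1, h2, h3, h4, h5, hu⟩ := four_letters i j hij
  refine ⟨k, l, h1, h2, h3, h4, h5, ?_⟩
  rw [hu, Finset.sum_insert (by simp [hij, h2.symm, h4.symm]),
    Finset.sum_insert (by simp [h3.symm, h5.symm]), Finset.sum_insert (by simp [h1]),
    Finset.sum_singleton] at hs
  have h6 : f k + f l = -(f i + f j) := by
    rw [eq_neg_iff_add_eq_zero, ← hs]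
    abel
  calc (f i - f k) + (f j - f l) = (f i + f j) - (f k + f l) := by abel
    _ = _ := by rw [h6, sub_neg_eq_add]

omit [GradedAlgebra 𝒜] in
/-- An interior weight is not a vertex. -/
theorem not_vx_of_int {μ : Fin r → ℤ} (h : ∀ l : (Fin r → ℤ) →+ ℤ, 0 < l μ → ∃ ω, Wt 𝒜 ω ∧
    l μ < l ω) : ¬ Vx 𝒜 μ := by
  rintro ⟨-, l, hl0, hl⟩
  obtain ⟨ω, hω, h1⟩ := h l hl0
  by_cases h2 : ω = μ
  · rw [h2] at h1
    exact lt_irrefl _ h1
  · exact lt_irrefl _ (h1.trans (hl ω hω h2))

omit [GradedAlgebra 𝒜] in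
theorem AC.int' (h : AC 𝒜 N n f β E F) (i : Fin (n + 1)) (l : (Fin r → ℤ) →+ ℤ)
    (hl : 0 < l (f i)) : ∃ ω, Wt 𝒜 ω ∧ l (f i) < l ω := by
  obtain ⟨j, hij, h1⟩ := h.int i l hl
  exact ⟨_, (h.vx i j hij).1, h1⟩

/-- The vertices with respect to a component. -/
theorem AC.vx_cases (h : AC 𝒜 N n f β E F) {μ : Fin r → ℤ} (hμ : Vx 𝒜 μ) :
    (∀ i j, i ≠ j → β i j μ = 0) ∨ ∃ i j, i ≠ j ∧ μ = f i - f j := by
  rcases h.S μ hμ.1 with h1 | h1 | ⟨i, h1 | h1⟩ | ⟨hn, i, j, hij, h1⟩
  · exact Or.inl h1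
  · exact Or.inr h1
  · exact absurd hμ (not_vx_of_int (h1 ▸ h.int' i))
  · exact absurd hμ (not_vx_of_int (h1 ▸ h.neg.int' i))
  · exfalso
    subst hn
    obtain ⟨-, l, hl0, hl⟩ := hμ
    obtain ⟨k, m, -, hk1, hk2, hm1, hm2, h2⟩ := AC.mid h.sum hij
    have h3 : l (f i - f k) + l (f j - f m) = l μ + l μ := by
      rw [← map_add, h2, map_add, h1]
    have key : ∀ ω, Wt 𝒜 ω → l ω ≤ l μ := fun ω hω => by
      by_cases h4 : ω = μ
      · rw [h4]
      · exact (hl ω hω h4).le
    have h4 := key _ (h.vx i k hk1.symm).1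
    have h5 := key _ (h.vx j m hm2.symm).1
    have h6 : f i - f k = μ := by
      by_contra hne
      have := hl _ (h.vx i k hk1.symm).1 hne
      omega
    have h7 := h.be i k i hk1.symm
    have h8 := h.be i k k hk1.symm
    have h9 := h.be i k j hk1.symm
    rw [if_pos rfl, if_neg hk1.symm] at h7
    rw [if_neg hk1, if_pos rfl] at h8
    rw [if_neg hij.symm, if_neg hk2.symm] at h9
    have h10 : β i k (f i - f k) = β i k (f i + f j) := by rw [h6, h1]
    rw [map_sub, map_add, h7, h8, h9] at h10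
    have := h.N0
    omega

/-- The functional of a sum of two letters (`n = 3`). -/
theorem AC.sum_bdry (h : AC 𝒜 N n f β E F) (hn : n = 3) {i j : Fin (n + 1)} (hij : i ≠ j) :
    ∃ l : (Fin r → ℤ) →+ ℤ, 0 < l (f i + f j) ∧ ∀ ω, Wt 𝒜 ω → l ω ≤ l (f i + f j) := by
  subst hn
  obtain ⟨k, m, h1, h2, h3, h4, h5, hu⟩ := four_letters i j hij
  have hN := h.N0
  have hb := h.be
  refine ⟨β i k + β j m + β i m + β j k, ?_, fun ω hω => ?_⟩
  · simp only [AddMonoidHom.add_apply, map_add, hb _ _ _ h2.symm, hb _ _ _ h5.symm,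
      hb _ _ _ h4.symm, hb _ _ _ h3.symm, if_pos, if_neg hij, if_neg hij.symm, if_neg h2.symm,
      if_neg h3.symm, if_neg h4.symm, if_neg h5.symm]
    omega
  · have e1 : (β i k + β j m + β i m + β j k) (f i + f j) = 4 * N := by
      simp only [AddMonoidHom.add_apply, map_add, hb _ _ _ h2.symm, hb _ _ _ h5.symm,
        hb _ _ _ h4.symm, hb _ _ _ h3.symm, if_pos, if_neg hij, if_neg hij.symm, if_neg h2.symm,
        if_neg h3.symm, if_neg h4.symm, if_neg h5.symm]
      ring
    rw [e1]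
    have key : ∀ a b, a ≠ b → (a = i ∨ a = j) → (b = k ∨ b = m) →
        (β i k + β j m + β i m + β j k) (f a - f b) = 4 * N := by
      intro a b hab ha hb'
      rcases ha with rfl | rfl <;> rcases hb' with rfl | rfl <;>
      simp only [AddMonoidHom.add_apply, map_sub, hb _ _ _ h2.symm, hb _ _ _ h5.symm,
        hb _ _ _ h4.symm, hb _ _ _ h3.symm, if_pos, if_neg hij, if_neg hij.symm, if_neg h2.symm,
        if_neg h3.symm, if_neg h4.symm, if_neg h5.symm, if_neg h1, if_neg h1.symm, if_neg h2,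
        if_neg h3, if_neg h4, if_neg h5] <;> ring
    have key2 : ∀ a b, a ≠ b → (a = i ∨ a = j) → (b = k ∨ b = m) →
        (ω = f a - f b ∨ ω = -(f a - f b)) → (β i k + β j m + β i m + β j k) ω ≤ 4 * N := by
      intro a b hab ha hb' h6
      rcases h6 with h6 | h6
      · rw [h6, key a b hab ha hb']
      · rw [h6, map_neg, key a b hab ha hb']
        omega
    by_cases c1 : ω = f i - f k ∨ ω = -(f i - f k)
    · exact key2 i k h2.symm (Or.inl rfl) (Or.inl rfl) c1
    by_cases c2 : ω = f j - f m ∨ ω = -(f j - f m)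
    · exact key2 j m h5.symm (Or.inr rfl) (Or.inr rfl) c2
    by_cases c3 : ω = f i - f m ∨ ω = -(f i - f m)
    · exact key2 i m h4.symm (Or.inl rfl) (Or.inr rfl) c3
    by_cases c4 : ω = f j - f k ∨ ω = -(f j - f k)
    · exact key2 j k h3.symm (Or.inr rfl) (Or.inl rfl) c4
    push Not at c1 c2 c3 c4
    have b1 := (abs_le.1 ((h.root i k h2.symm).bd ω hω c1.1 c1.2)).2
    have b2 := (abs_le.1 ((h.root j m h5.symm).bd ω hω c2.1 c2.2)).2
    have b3 := (abs_le.1 ((h.root i m h4.symm).bd ω hω c3.1 c3.2)).2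
    have b4 := (abs_le.1 ((h.root j k h3.symm).bd ω hω c4.1 c4.2)).2
    simp only [AddMonoidHom.add_apply]
    omega

/-- An interior weight is orthogonal to the component, or a letter up to sign. -/
theorem AC.int_cases (h : AC 𝒜 N n f β E F) {μ : Fin r → ℤ} (hw : Wt 𝒜 μ)
    (hμ : ∀ l : (Fin r → ℤ) →+ ℤ, 0 < l μ → ∃ ω, Wt 𝒜 ω ∧ l μ < l ω) :
    (∀ i j, i ≠ j → β i j μ = 0) ∨ ∃ i, μ = f i ∨ μ = -f i := by
  rcases h.S μ hw with h1 | ⟨i, j, hij, h1⟩ | h1 | ⟨hn, i, j, hij, h1⟩
  · exact Or.inl h1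
  · exact absurd (h1 ▸ h.vx i j hij) (not_vx_of_int hμ)
  · exact Or.inr h1
  · exfalso
    obtain ⟨l, hl0, hl⟩ := h.sum_bdry hn hij
    rw [← h1] at hl0 hl
    obtain ⟨ω, hω, h2⟩ := hμ l hl0
    exact lt_irrefl _ (h2.trans_le (hl ω hω))

/-- Two components with a common letter have the same letters. -/
theorem AC.range_sub (H : Hyp 𝒜) (h : AC 𝒜 N n f β E F) {N' : ℤ} {m : ℕ}
    {g : Fin (m + 1) → Fin r → ℤ} {β' : Fin (m + 1) → Fin (m + 1) → ((Fin r → ℤ) →+ ℤ)}
    {E' F' : Fin (m + 1) → Fin (m + 1) → VF R} (h' : AC 𝒜 N' m g β' E' F') {k0 : Fin (m + 1)}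
    {i0 : Fin (n + 1)} (h0 : g k0 = f i0) : Set.range g ⊆ Set.range f := by
  rintro _ ⟨l, rfl⟩
  by_cases hl : l = k0
  · exact ⟨i0, by rw [hl, h0]⟩
  have hN := h.N0
  have hv := h'.vx k0 l (Ne.symm hl)
  have hn2 := h.n2
  obtain ⟨j0, hj0⟩ : ∃ j0 : Fin (n + 1), i0 ≠ j0 := by
    have : Nontrivial (Fin (n + 1)) := Fin.nontrivial_iff_two_le.2 (by omega)
    obtain ⟨j0, hj0⟩ := exists_ne i0
    exact ⟨j0, hj0.symm⟩
  have hb0 := h.be i0 j0 i0 hj0
  rw [if_pos rfl, if_neg hj0, sub_zero] at hb0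
  have hsp := mem_sp f
  rcases h.int_cases (h'.wt l) (h'.int' l) with h1 | ⟨j, h1 | h1⟩
  · exfalso
    rcases h.vx_cases hv with h2 | ⟨a, b, hab, h2⟩
    · have h3 := h2 i0 j0 hj0
      rw [map_sub, h0, h1 i0 j0 hj0, hb0] at h3
      omega
    · refine h.other_span H (h'.wt l) h1 ?_
      have h3 : g l = f i0 - (f a - f b) := by rw [← h2, h0]; abel
      rw [h3]
      exact Submodule.sub_mem _ (hsp _) (Submodule.sub_mem _ (hsp _) (hsp _))
  · exact ⟨j, h1.symm⟩
  · exfalso
    have h3 : g k0 - g l = f i0 + f j := by rw [h0, h1, sub_neg_eq_add]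
    rw [h3] at hv
    rcases h.vx_cases hv with h2 | ⟨a, b, hab, h2⟩
    · exact h.other_span H hv.1 h2 (Submodule.add_mem _ (hsp _) (hsp _))
    · have h4 : ∑ k, ((if k = i0 then 1 else 0) + (if k = j then 1 else 0) -
          (if k = a then 1 else 0) + (if k = b then 1 else 0) : ℤ) • f k = 0 := by
        simp only [add_smul, sub_smul, ite_smul, one_smul, zero_smul, Finset.sum_add_distrib,
          Finset.sum_sub_distrib, Finset.sum_ite_eq', Finset.mem_univ, if_true]
        rw [h2]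
        abel
      obtain ⟨κ, -, h5, -⟩ := h.eq_zero_of_be (w := fun k => (if k = i0 then 1 else 0) +
        (if k = j then 1 else 0) - (if k = a then 1 else 0) + (if k = b then 1 else 0))
        (fun p q hpq => by rw [h4, map_zero])
      simp only [Finset.sum_add_distrib, Finset.sum_sub_distrib, Finset.sum_ite_eq',
        Finset.mem_univ, if_true] at h5
      have h6 : ((n : ℤ) + 1) ∣ 2 := ⟨κ, by linarith⟩
      have := Int.le_of_dvd (by norm_num) h6
      omega

theorem AC.range_eq (H : Hyp 𝒜) (h : AC 𝒜 N n f β E F) {N' : ℤ} {m : ℕ}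
    {g : Fin (m + 1) → Fin r → ℤ} {β' : Fin (m + 1) → Fin (m + 1) → ((Fin r → ℤ) →+ ℤ)}
    {E' F' : Fin (m + 1) → Fin (m + 1) → VF R} (h' : AC 𝒜 N' m g β' E' F') {k0 : Fin (m + 1)}
    {i0 : Fin (n + 1)} (h0 : g k0 = f i0) : Set.range g = Set.range f :=
  Set.Subset.antisymm (h.range_sub H h' h0) (h'.range_sub H h h0.symm)

end

/-- The number of positive letters. -/
noncomputable def npos (c : (Fin r → ℤ) →+ ℤ) {n : ℕ} (f : Fin (n + 1) → Fin r → ℤ) : ℕ :=
  {μ | μ ∈ Set.range f ∧ 0 < c μ}.ncard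

theorem npos_congr {c : (Fin r → ℤ) →+ ℤ} {n m : ℕ} {f : Fin (n + 1) → Fin r → ℤ}
    {g : Fin (m + 1) → Fin r → ℤ} (h : Set.range g = Set.range f) : npos c g = npos c f := by
  rw [npos, npos, h]

theorem npos_eq {c : (Fin r → ℤ) →+ ℤ} {n : ℕ} {f : Fin (n + 1) → Fin r → ℤ}
    (hf : Function.Injective f) : npos c f = (Finset.univ.filter fun i => 0 < c (f i)).card := by
  have h : {μ | μ ∈ Set.range f ∧ 0 < c μ} =
      ((Finset.univ.filter fun i => 0 < c (f i)).map ⟨f, hf⟩ : Finset (Fin r → ℤ)) := by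
    ext μ
    simp only [Set.mem_ofPred_eq, Set.mem_range, Finset.coe_map, Function.Embedding.coeFn_mk,
      Finset.coe_filter, Finset.mem_univ, true_and, Set.mem_image]
    constructor
    · rintro ⟨⟨i, rfl⟩, h1⟩
      exact ⟨i, h1, rfl⟩
    · rintro ⟨i, h1, rfl⟩
      exact ⟨⟨i, rfl⟩, h1⟩
  rw [npos, h, Set.ncard_coe_finset, Finset.card_map]

theorem npos_neg {c : (Fin r → ℤ) →+ ℤ} {n : ℕ} {f : Fin (n + 1) → Fin r → ℤ}
    (hf : Function.Injective f) (hc : ∀ i, c (f i) ≠ 0) :
    npos c (fun i => -f i) = n + 1 - npos c f := by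
  rw [npos_eq hf, npos_eq (f := fun i => -f i) (fun i j hij => hf (neg_injective hij))]
  have h1 : (Finset.univ.filter fun i => 0 < c (-f i)) =
      (Finset.univ.filter fun i => 0 < c (f i))ᶜ := by
    ext i
    simp only [Finset.mem_filter, Finset.mem_univ, true_and, Finset.mem_compl, map_neg]
    have := hc i
    omega
  rw [h1, Finset.card_compl, Fintype.card_fin]

/-- One chamber for all components: the number of positive letters of each component can be
prescribed. -/
theorem exists_chamber (H : Hyp 𝒜) (P : Set (Fin r → ℤ) → ℕ → Prop)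
    (h1 : ∀ N n (f : Fin (n + 1) → Fin r → ℤ) β E F, AC 𝒜 N n f β E F →
      ∃ k, 1 ≤ k ∧ k ≤ n ∧ P (Set.range f) k)
    (h2 : ∀ N n (f : Fin (n + 1) → Fin r → ℤ) β E F, AC 𝒜 N n f β E F →
      ∀ k, k ≤ n + 1 → P (Set.range f) k → P (Set.range fun i => -f i) (n + 1 - k)) :
    ∃ c : (Fin r → ℤ) →+ ℤ, (∀ μ, Wt 𝒜 μ → c μ ≠ 0) ∧
      ∀ N n (f : Fin (n + 1) → Fin r → ℤ) β E F, AC 𝒜 N n f β E F →
        P (Set.range f) (npos c f) := by
  classical
  -- the bad weights
  set B : ((Fin r → ℤ) →+ ℤ) → Set (Fin r → ℤ) := fun c => {μ | ∃ N n,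
    ∃ f : Fin (n + 1) → Fin r → ℤ, ∃ β E F, AC 𝒜 N n f β E F ∧ μ ∈ Set.range f ∧
      ¬ P (Set.range f) (npos c f)} with hB
  have hfin : ∀ c, (B c).Finite := fun c => (C07.wt_finite H).subset fun μ hμ => by
    obtain ⟨N, n, f, β, E, F, h, ⟨i, rfl⟩, -⟩ := hμ
    exact h.wt i
  have key : ∀ t : ℕ, ∀ c : (Fin r → ℤ) →+ ℤ, (∀ μ, Wt 𝒜 μ → c μ ≠ 0) → (B c).ncard = t →
      ∃ c : (Fin r → ℤ) →+ ℤ, (∀ μ, Wt 𝒜 μ → c μ ≠ 0) ∧
      ∀ N n (f : Fin (n + 1) → Fin r → ℤ) β E F, AC 𝒜 N n f β E F →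
        P (Set.range f) (npos c f) := by
    intro t
    induction t using Nat.strong_induction_on with
    | _ t ih =>
    intro c hc ht
    by_cases hBe : B c = ∅
    · refine ⟨c, hc, fun N n f β E F h => ?_⟩
      by_contra hcon
      have h3 : f 0 ∈ B c := ⟨N, n, f, β, E, F, h, ⟨0, rfl⟩, hcon⟩
      rw [hBe] at h3
      exact h3
    · obtain ⟨μ, hμ⟩ := Set.nonempty_iff_ne_empty.2 hBe
      have hμ' := hμ
      obtain ⟨N, n, f, β, E, F, h, ⟨i0, rfl⟩, hbad⟩ := hμ
      obtain ⟨k, hk1, hkn, hPk⟩ := h1 N n f β E F h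
      have hN := h.N0
      -- the correction
      set G : (Fin r → ℤ) →+ ℤ := ∑ i : Fin (n + 1), ∑ j : Fin (n + 1),
        if (i : ℕ) < k ∧ k ≤ (j : ℕ) then β i j else 0 with hG
      have hG0 : ∀ ω, (∀ i j, i ≠ j → β i j ω = 0) → G ω = 0 := by
        intro ω hω
        rw [hG, AddMonoidHom.finsetSum_apply]
        refine Finset.sum_eq_zero fun i _ => ?_
        rw [AddMonoidHom.finsetSum_apply]
        refine Finset.sum_eq_zero fun j _ => ?_
        split_ifs with hij
        · exact hω i j (fun h => by rw [h] at hij; omega)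
        · rfl
      have hGv : ∀ a, G (f a) = ∑ i : Fin (n + 1), ∑ j : Fin (n + 1),
          if (i : ℕ) < k ∧ k ≤ (j : ℕ) then (if a = i then N else 0) - (if a = j then N else 0)
          else 0 := by
        intro a
        rw [hG, AddMonoidHom.finsetSum_apply]
        refine Finset.sum_congr rfl fun i _ => ?_
        rw [AddMonoidHom.finsetSum_apply]
        refine Finset.sum_congr rfl fun j _ => ?_
        by_cases hij : (i : ℕ) < k ∧ k ≤ (j : ℕ)
        · rw [if_pos hij, if_pos hij, h.be i j a (fun h => by rw [h] at hij; omega)]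
        · rw [if_neg hij, if_neg hij, AddMonoidHom.zero_apply]
      have hGp : ∀ a : Fin (n + 1), (a : ℕ) < k → 0 < G (f a) := by
        intro a ha
        rw [hGv]
        have h3 : ∀ i j : Fin (n + 1), 0 ≤ (if (i : ℕ) < k ∧ k ≤ (j : ℕ) then
            (if a = i then N else 0) - (if a = j then N else 0) else 0) := by
          intro i j
          split_ifs with h4 h5 h6 h6
          · subst h6; omega
          · omega
          · subst h6; omega
          · omega
          · exact le_rfl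
        refine Finset.sum_pos' (fun i _ => Finset.sum_nonneg fun j _ => h3 i j)
          ⟨a, Finset.mem_univ _, Finset.sum_pos' (fun j _ => h3 a j)
            ⟨Fin.last n, Finset.mem_univ _, ?_⟩⟩
        have h4 : a ≠ Fin.last n := fun h => by
          rw [h] at ha
          simp only [Fin.val_last] at ha
          omega
        rw [if_pos ⟨ha, by simpa using hkn⟩, if_pos rfl, if_neg h4]
        omega
      have hGn : ∀ a : Fin (n + 1), k ≤ (a : ℕ) → G (f a) < 0 := by
        intro a ha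
        rw [hGv]
        have h3 : ∀ i j : Fin (n + 1), 0 ≤ -(if (i : ℕ) < k ∧ k ≤ (j : ℕ) then
            (if a = i then N else 0) - (if a = j then N else 0) else 0) := by
          intro i j
          split_ifs with h4 h5 h6 h6
          · subst h5; omega
          · subst h5; omega
          · omega
          · omega
          · simp
        rw [← neg_pos, ← Finset.sum_neg_distrib]
        simp only [← Finset.sum_neg_distrib]
        refine Finset.sum_pos' (fun i _ => Finset.sum_nonneg fun j _ => h3 i j)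
          ⟨0, Finset.mem_univ _, Finset.sum_pos' (fun j _ => h3 0 j)
            ⟨a, Finset.mem_univ _, ?_⟩⟩
        have h4 : a ≠ 0 := fun h => by
          rw [h] at ha
          simp only [Fin.val_zero] at ha
          omega
        rw [if_pos ⟨by rw [Fin.val_zero]; omega, ha⟩, if_neg h4, if_pos rfl]
        omega
      obtain ⟨L, hL0, hL⟩ := C07.wt_bound H c
      have hgen : ∀ ω, Wt 𝒜 ω → ((L + 1) • G + c) ω ≠ 0 := by
        intro ω hω
        have h3 := hc ω hω
        have h4 := abs_le.1 (hL ω hω)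
        rw [AddMonoidHom.add_apply, AddMonoidHom.zsmul_apply, smul_eq_mul]
        rcases lt_trichotomy (G ω) 0 with h5 | h5 | h5
        · nlinarith [h4.1, h4.2]
        · rw [h5, mul_zero, zero_add]
          exact h3
        · nlinarith [h4.1, h4.2]
      have hsame : ∀ ω, (∀ i j, i ≠ j → β i j ω = 0) → ((L + 1) • G + c) ω = c ω := by
        intro ω hω
        rw [AddMonoidHom.add_apply, AddMonoidHom.zsmul_apply, hG0 ω hω, smul_zero, zero_add]
      have hk : npos ((L + 1) • G + c) f = k := by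
        have h3 : (Finset.univ.filter fun i => 0 < ((L + 1) • G + c) (f i)) =
            Finset.univ.filter fun i : Fin (n + 1) => (i : ℕ) < k := by
          ext a
          simp only [Finset.mem_filter, Finset.mem_univ, true_and]
          have h4 := abs_le.1 (hL _ (h.wt a))
          rw [AddMonoidHom.add_apply, AddMonoidHom.zsmul_apply, smul_eq_mul]
          constructor
          · intro h5
            by_contra h6
            have h7 := hGn a (not_lt.1 h6)
            nlinarith [h4.1, h4.2]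
          · intro h5
            have h7 := hGp a h5
            nlinarith [h4.1, h4.2]
        rw [npos_eq h.inj, h3, Fin.card_filter_val_lt]
        omega
      refine ih (B ((L + 1) • G + c)).ncard ?_ ((L + 1) • G + c) hgen rfl
      rw [← ht]
      refine Set.ncard_lt_ncard ?_ (hfin c)
      have hgood : ∀ N' m, ∀ g : Fin (m + 1) → Fin r → ℤ, ∀ β' E' F', AC 𝒜 N' m g β' E' F' →
          ¬ P (Set.range g) (npos ((L + 1) • G + c) g) → ∀ l, ∀ i j, i ≠ j → β i j (g l) = 0 := by
        intro N' m g β' E' F' h' hb l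
        rcases h.int_cases (h'.wt l) (h'.int' l) with h3 | ⟨j, h3 | h3⟩
        · exact h3
        · exfalso
          have h4 := h.range_eq H h' h3
          rw [h4, npos_congr h4, hk] at hb
          exact hb hPk
        · exfalso
          have h4 := h.neg.range_eq H h' h3
          rw [h4, npos_congr h4, npos_neg h.inj (fun i => hgen _ (h.wt i)), hk] at hb
          exact hb (h2 N n f β E F h k (by omega) hPk)
      constructor
      · rintro ν ⟨N', m, g, β', E', F', h', hν, hb⟩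
        have h3 := hgood N' m g β' E' F' h' hb
        refine ⟨N', m, g, β', E', F', h', hν, ?_⟩
        have h4 : npos ((L + 1) • G + c) g = npos c g := by
          rw [npos, npos]
          congr 1
          ext ω
          simp only [Set.mem_ofPred_eq]
          refine and_congr_right ?_
          rintro ⟨l, rfl⟩
          rw [hsame _ (h3 l)]
        rwa [h4] at hb
      · intro hsub
        obtain ⟨N', m, g, β', E', F', h', ⟨l, hl⟩, hb⟩ := hsub hμ'
        have h3 := hgood N' m g β' E' F' h' hb l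
        rw [hl] at h3
        have hn2 := h.n2
        have : Nontrivial (Fin (n + 1)) := Fin.nontrivial_iff_two_le.2 (by omega)
        obtain ⟨j0, hj0⟩ := exists_ne i0
        have h4 := h.be i0 j0 i0 hj0.symm
        rw [h3 i0 j0 hj0.symm, if_pos rfl, if_neg hj0.symm] at h4
        omega
  obtain ⟨c, hc⟩ := H587.exists_generic (S := {ω | Wt 𝒜 ω} ∪ {0})
    ((C07.wt_finite H).union (Set.finite_singleton 0))
  refine key _ c (fun μ hμ h0 => c03_wt_ne_zero H hμ (hc (Or.inl hμ) (Or.inr rfl) ?_)) rfl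
  rw [h0, map_zero]

/-- A decreasing order of the letters. -/
theorem exists_sorted {n : ℕ} {f : Fin (n + 1) → Fin r → ℤ} {c : (Fin r → ℤ) →+ ℤ}
    (hf : ∀ i j, i ≠ j → c (f i) ≠ c (f j)) :
    ∃ σ : Equiv.Perm (Fin (n + 1)), ∀ i j, i < j → c (f (σ j)) < c (f (σ i)) := by
  refine ⟨Tuple.sort fun i => -c (f i), fun i j hij => ?_⟩
  have h1 := Tuple.monotone_sort (fun i => -c (f i)) hij.le
  simp only [Function.comp_apply, neg_le_neg_iff] at h1
  exact lt_of_le_of_ne h1 (hf _ _ ((Tuple.sort fun i => -c (f i)).injective.ne hij.ne').symm ∘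
    Eq.symm)

theorem pos_iff {n : ℕ} {f : Fin (n + 1) → Fin r → ℤ} {c : (Fin r → ℤ) →+ ℤ}
    (hf : ∀ i j, i < j → c (f j) < c (f i)) (i : Fin (n + 1)) :
    0 < c (f i) ↔ (i : ℕ) < npos c f := by
  have hinj : Function.Injective f := by
    intro a b hab
    rcases lt_trichotomy a b with h | h | h
    · exact absurd (hf a b h) (by rw [hab]; exact lt_irrefl _)
    · exact h
    · exact absurd (hf b a h) (by rw [hab]; exact lt_irrefl _)
  rw [npos_eq hinj]
  constructor
  · intro h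
    have h1 : (Finset.univ.filter fun j : Fin (n + 1) => (j : ℕ) < (i : ℕ) + 1) ⊆
        Finset.univ.filter fun j => 0 < c (f j) := by
      intro j hj
      simp only [Finset.mem_filter, Finset.mem_univ, true_and] at hj ⊢
      rcases (show j ≤ i from Nat.lt_succ_iff.1 hj).lt_or_eq with h2 | h2
      · exact h.trans (hf j i h2)
      · rw [h2]; exact h
    have h2 := Finset.card_le_card h1
    rw [Fin.card_filter_val_lt] at h2
    have := i.2
    omega
  · intro h
    by_contra hcon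
    have h1 : (Finset.univ.filter fun j => 0 < c (f j)) ⊆
        Finset.univ.filter fun j : Fin (n + 1) => (j : ℕ) < (i : ℕ) := by
      intro j hj
      simp only [Finset.mem_filter, Finset.mem_univ, true_and] at hj ⊢
      by_contra h2
      rcases (show i ≤ j from not_lt.1 h2).lt_or_eq with h3 | h3
      · exact hcon (hj.trans (hf i j h3))
      · rw [← h3] at hj
        exact hcon hj
    have h2 := Finset.card_le_card h1
    rw [Fin.card_filter_val_lt] at h2
    omega

section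
variable {N : ℤ} {n : ℕ} {f : Fin (n + 1) → Fin r → ℤ}
  {β : Fin (n + 1) → Fin (n + 1) → ((Fin r → ℤ) →+ ℤ)} {E F : Fin (n + 1) → Fin (n + 1) → VF R}

/-- The component can be numbered in decreasing order. -/
theorem AC.exists_sorted (h : AC 𝒜 N n f β E F) {c : (Fin r → ℤ) →+ ℤ}
    (hc : ∀ μ, Wt 𝒜 μ → c μ ≠ 0) : ∃ σ : Equiv.Perm (Fin (n + 1)),
      (∀ i j, i < j → c (f (σ j)) < c (f (σ i))) ∧
      ∀ i, 0 < c (f (σ i)) ↔ (i : ℕ) < npos c f := by
  obtain ⟨σ, hσ⟩ := H989.exists_sorted (c := c) (f := f) (fun i j hij h1 =>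
    hc _ (h.vx i j hij).1 (by rw [map_sub, h1, sub_self]))
  refine ⟨σ, hσ, fun i => ?_⟩
  rw [pos_iff (f := fun i => f (σ i)) hσ i, npos, npos]
  have h1 : Set.range (fun i => f (σ i)) = Set.range f := by
    ext ω
    constructor
    · rintro ⟨i, rfl⟩
      exact ⟨σ i, rfl⟩
    · rintro ⟨i, rfl⟩
      exact ⟨σ.symm i, by simp⟩
  rw [h1]

end

end Vale.Agent.P280.N.H989
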