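import Vale.Agent.P280.H989.RS

/-! P280, plan N, stage 2: nondegeneracy. -/

namespace Vale.Agent.P280.N.H989

variable {r : ℕ}

namespace ND

/-- the rational vector of an integral one -/
def io (m : Fin r → ℤ) : Fin r → ℚ := fun i => (m i : ℚ)

theorem io_inj {m n : Fin r → ℤ} (h : io m = io n) : m = n := by
  funext i
  have := congrFun h i
  simpa [io] using this

/-- the rational extension of an integral functional -/
noncomputable def lin (g : (Fin r → ℤ) →+ ℤ) : (Fin r → ℚ) →ₗ[ℚ] ℚ :=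
  ∑ i, (g (Pi.single i 1) : ℚ) • LinearMap.proj i

theorem g_eq (g : (Fin r → ℤ) →+ ℤ) (m : Fin r → ℤ) : g m = ∑ i, g (Pi.single i 1) * m i := by
  conv_lhs => rw [← Finset.univ_sum_single m]
  rw [map_sum]
  refine Finset.sum_congr rfl fun i _ => ?_
  have h1 : (Pi.single i (m i) : Fin r → ℤ) = m i • Pi.single i (1 : ℤ) := by
    rw [← Pi.single_smul, smul_eq_mul, mul_one]
  rw [h1, map_zsmul, smul_eq_mul, mul_comm]

theorem lin_io (g : (Fin r → ℤ) →+ ℤ) (m : Fin r → ℤ) : lin g (io m) = (g m : ℚ) := by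
  rw [g_eq, lin]
  simp [io]

/-- every rational functional is an integral one up to a factor -/
theorem exists_int (f : (Fin r → ℚ) →ₗ[ℚ] ℚ) :
    ∃ (D : ℤ) (g : (Fin r → ℤ) →+ ℤ), D ≠ 0 ∧ ∀ m, (g m : ℚ) = D * f (io m) := by
  classical
  set D : ℤ := ∏ i : Fin r, ((f (Pi.single i 1)).den : ℤ) with hD
  have hD0 : D ≠ 0 := Finset.prod_ne_zero_iff.2 fun i _ => by
    exact_mod_cast (f (Pi.single i 1)).den_nz
  have hx : ∀ i : Fin r, ∃ a : ℤ, (a : ℚ) = D * f (Pi.single i 1) := by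
    intro i
    refine ⟨(∏ j ∈ Finset.univ.erase i, ((f (Pi.single j 1)).den : ℤ)) * (f (Pi.single i 1)).num, ?_⟩
    have h1 : D = ((f (Pi.single i 1)).den : ℤ) *
        ∏ j ∈ Finset.univ.erase i, ((f (Pi.single j 1)).den : ℤ) :=
      (Finset.mul_prod_erase _ _ (Finset.mem_univ i)).symm
    have h2 : ((f (Pi.single i 1)).den : ℚ) * f (Pi.single i 1) = (f (Pi.single i 1)).num := by
      exact_mod_cast Rat.den_mul_eq_num _
    rw [h1]
    push_cast
    rw [← h2]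
    ring
  choose a ha using hx
  refine ⟨D, ∑ i, (a i) • (Pi.evalAddMonoidHom (fun _ : Fin r => ℤ) i), hD0, fun m => ?_⟩
  have h3 : f (io m) = ∑ i, (m i : ℚ) * f (Pi.single i 1) := by
    conv_lhs => rw [← Finset.univ_sum_single (io m)]
    rw [map_sum]
    refine Finset.sum_congr rfl fun i _ => ?_
    have h1 : (Pi.single i (io m i) : Fin r → ℚ) = io m i • Pi.single i (1 : ℚ) := by
      rw [← Pi.single_smul, smul_eq_mul, mul_one]
    rw [h1, map_smul, smul_eq_mul]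
    rfl
  rw [h3, Finset.mul_sum]
  simp only [AddMonoidHom.finset_sum_apply, AddMonoidHom.smul_apply, Pi.evalAddMonoidHom_apply,
    smul_eq_mul, Int.cast_sum, Int.cast_mul]
  refine Finset.sum_congr rfl fun i _ => ?_
  rw [ha]
  ring

end ND

open ND

variable {V : Finset (Fin r → ℤ)} {W : Set (Fin r → ℤ)}
  {b : (Fin r → ℤ) → ((Fin r → ℤ) →+ ℤ)} {N : ℤ}

theorem RS.keyQ (h : RS V W b N) {χ : Fin r → ℤ} (hχ : χ ∈ V) (f : (Fin r → ℚ) →ₗ[ℚ] ℚ) :
    2 * (N : ℚ) * ∑ ω ∈ V, (b χ ω : ℚ) * f (io ω) = (RS.cc V b χ : ℚ) * f (io χ) := by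
  obtain ⟨D, g, hD, hg⟩ := exists_int f
  have h1 := h.key hχ g
  have h2 : (2 * (N : ℚ) * ∑ ω ∈ V, (b χ ω : ℚ) * (g ω : ℚ)) = (RS.cc V b χ : ℚ) * g χ := by
    exact_mod_cast h1
  have h3 : (D : ℚ) ≠ 0 := by exact_mod_cast hD
  apply mul_left_cancel₀ h3
  simp only [hg] at h2
  calc (D : ℚ) * (2 * (N : ℚ) * ∑ ω ∈ V, (b χ ω : ℚ) * f (io ω))
      = 2 * (N : ℚ) * ∑ ω ∈ V, (b χ ω : ℚ) * (D * f (io ω)) := by
        rw [Finset.mul_sum, Finset.mul_sum, Finset.mul_sum]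
        exact Finset.sum_congr rfl fun ω _ => by ring
    _ = (RS.cc V b χ : ℚ) * (D * f (io χ)) := h2
    _ = _ := by ring

/-- A vector in the span of the vertices killed by all `b χ` is zero. -/
theorem RS.nd (h : RS V W b N) {ν : Fin r → ℤ} (hν : ∀ χ ∈ V, b χ ν = 0)
    (hext : ∀ g : (Fin r → ℤ) →+ ℤ, (∀ χ ∈ V, g χ = 0) → g ν = 0) : ν = 0 := by
  classical
  have hsp : io ν ∈ Submodule.span ℚ (io '' (V : Set (Fin r → ℤ))) := by
    by_contra hn
    obtain ⟨f, hf1, hf2⟩ := Submodule.exists_le_ker_of_notMem hn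
    obtain ⟨D, g, hD, hg⟩ := exists_int f
    have h1 : g ν = 0 := by
      apply hext
      intro χ hχ
      have h2 : f (io χ) = 0 := hf2 (Submodule.subset_span ⟨χ, hχ, rfl⟩)
      have h3 := hg χ
      rw [h2, mul_zero] at h3
      exact_mod_cast h3
    have h4 := hg ν
    rw [h1] at h4
    have h5 : (D : ℚ) ≠ 0 := by exact_mod_cast hD
    have h6 : (D : ℚ) * f (io ν) = 0 := by rw [← h4]; simp
    exact hf1 ((mul_eq_zero.1 h6).resolve_left h5)
  obtain ⟨q, hq⟩ : ∃ q : (Fin r → ℤ) → ℚ, ∑ χ ∈ V, q χ • io χ = io ν := by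
    have h1 : (io '' (V : Set (Fin r → ℤ))) = ((V.image io : Finset (Fin r → ℚ)) : Set _) := by
      simp
    rw [h1, Submodule.mem_span_finset] at hsp
    obtain ⟨t, _, ht⟩ := hsp
    refine ⟨fun χ => t (io χ), ?_⟩
    rw [← ht, Finset.sum_image]
    intro x _ y _ hxy
    exact io_inj hxy
  set l0 : (Fin r → ℚ) →ₗ[ℚ] ℚ :=
    ∑ χ ∈ V, (q χ * (2 * N / RS.cc V b χ)) • lin (b χ) with hl0
  have hl0v : ∀ m : Fin r → ℤ, l0 (io m) = ∑ χ ∈ V, (q χ * (2 * N / RS.cc V b χ)) * (b χ m : ℚ) := by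
    intro m
    rw [hl0, LinearMap.sum_apply]
    exact Finset.sum_congr rfl fun χ _ => by rw [LinearMap.smul_apply, lin_io, smul_eq_mul]
  have hall : ∀ f : (Fin r → ℚ) →ₗ[ℚ] ℚ, f (io ν) = ∑ ω ∈ V, l0 (io ω) * f (io ω) := by
    intro f
    rw [← hq, map_sum]
    have h1 : ∀ χ ∈ V, f (q χ • io χ) =
        ∑ ω ∈ V, (q χ * (2 * N / RS.cc V b χ)) * (b χ ω : ℚ) * f (io ω) := by
      intro χ hχ
      have h2 := h.keyQ hχ f
      have h3 : (RS.cc V b χ : ℚ) ≠ 0 := by exact_mod_cast (h.cc_pos hχ).ne'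
      rw [map_smul, smul_eq_mul]
      have h4 : f (io χ) = (2 * N / RS.cc V b χ) * ∑ ω ∈ V, (b χ ω : ℚ) * f (io ω) := by
        field_simp
        linear_combination (-1 : ℚ) * h2
      rw [h4, Finset.mul_sum, Finset.mul_sum]
      exact Finset.sum_congr rfl fun ω _ => by ring
    rw [Finset.sum_congr rfl h1, Finset.sum_comm]
    refine Finset.sum_congr rfl fun ω _ => ?_
    rw [hl0v, Finset.sum_mul]
  have h0 : l0 (io ν) = 0 := by
    rw [hl0v]
    exact Finset.sum_eq_zero fun χ hχ => by rw [hν χ hχ]; simp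
  have h1 := hall l0
  rw [h0] at h1
  have h2 : ∀ ω ∈ V, l0 (io ω) = 0 := by
    intro ω hω
    have := (Finset.sum_eq_zero_iff_of_nonneg (fun ω _ => mul_self_nonneg (l0 (io ω)))).1
      h1.symm ω hω
    exact mul_self_eq_zero.1 this
  have h3 : io ν = 0 := by
    funext i
    have := hall (LinearMap.proj i)
    rw [Finset.sum_eq_zero (fun ω hω => by rw [h2 ω hω, zero_mul])] at this
    simpa using this
  apply io_inj
  rw [h3]
  funext i
  simp [io]

end Vale.Agent.P280.N.H989
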