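import Mathlib

/-! P280, plan N, stage 2: finite systems of vectors closed under reflections. -/

namespace Vale.Agent.P280.N.H989

variable {r : ℕ}

/-- A finite set `V` of vectors with functionals `b χ`, stable under the reflections, and a set `W`
of weights. -/
structure RS (V : Finset (Fin r → ℤ)) (W : Set (Fin r → ℤ))
    (b : (Fin r → ℤ) → ((Fin r → ℤ) →+ ℤ)) (N : ℤ) : Prop where
  N0 : 0 < N
  two : ∀ χ ∈ V, b χ χ = 2 * N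
  dvd : ∀ χ ∈ V, ∀ ω ∈ W, N ∣ b χ ω
  bd : ∀ χ ∈ V, ∀ ω ∈ W, ω ≠ χ → ω ≠ -χ → |b χ ω| ≤ N
  sub : ∀ χ ∈ V, χ ∈ W
  refl : ∀ χ ∈ V, ∀ ψ ∈ V, ∀ k : ℤ, b χ ψ = k * N → ψ - k • χ ∈ V
  ext : ∀ g : (Fin r → ℤ) →+ ℤ, ∀ a : ℤ, 0 ≤ a → (∀ χ ∈ V, g χ ≤ a) → ∀ ω ∈ W, g ω ≤ a

variable {V : Finset (Fin r → ℤ)} {W : Set (Fin r → ℤ)}
  {b : (Fin r → ℤ) → ((Fin r → ℤ) →+ ℤ)} {N : ℤ}

namespace RS

theorem ext0 (h : RS V W b N) (g : (Fin r → ℤ) →+ ℤ) (hg : ∀ χ ∈ V, g χ = 0) {ω : Fin r → ℤ}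
    (hω : ω ∈ W) : g ω = 0 := by
  apply le_antisymm
  · exact h.ext g 0 le_rfl (fun χ hχ => (hg χ hχ).le) ω hω
  · have h1 := h.ext (-g) 0 le_rfl (fun χ hχ => by simp [hg χ hχ]) ω hω
    simpa using h1

/-- the reflection -/
noncomputable def sig (b : (Fin r → ℤ) → ((Fin r → ℤ) →+ ℤ)) (N : ℤ) (χ ψ : Fin r → ℤ) :
    Fin r → ℤ := ψ - (b χ ψ / N) • χ

theorem div_mul (h : RS V W b N) {χ ψ : Fin r → ℤ} (hχ : χ ∈ V) (hψ : ψ ∈ W) :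
    b χ ψ / N * N = b χ ψ := Int.ediv_mul_cancel (h.dvd χ hχ ψ hψ)

theorem sig_mem (h : RS V W b N) {χ ψ : Fin r → ℤ} (hχ : χ ∈ V) (hψ : ψ ∈ V) :
    sig b N χ ψ ∈ V :=
  h.refl χ hχ ψ hψ _ (h.div_mul hχ (h.sub ψ hψ)).symm

theorem b_sig (h : RS V W b N) {χ ψ : Fin r → ℤ} (hχ : χ ∈ V) (hψ : ψ ∈ V) :
    b χ (sig b N χ ψ) = -b χ ψ := by
  have h1 := h.div_mul hχ (h.sub ψ hψ)
  rw [sig, map_sub, map_zsmul, h.two χ hχ, smul_eq_mul]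
  linear_combination (-2 : ℤ) * h1

theorem sig_sig (h : RS V W b N) {χ ψ : Fin r → ℤ} (hχ : χ ∈ V) (hψ : ψ ∈ V) :
    sig b N χ (sig b N χ ψ) = ψ := by
  have h1 := h.b_sig hχ hψ
  rw [sig, h1, Int.neg_ediv_of_dvd (h.dvd χ hχ ψ (h.sub ψ hψ)), sig, neg_smul]
  abel

theorem sum_sig (h : RS V W b N) {χ : Fin r → ℤ} (hχ : χ ∈ V) {α : Type*} [AddCommMonoid α]
    (f : (Fin r → ℤ) → α) : ∑ ω ∈ V, f (sig b N χ ω) = ∑ ω ∈ V, f ω :=
  Finset.sum_bij' (fun ω _ => sig b N χ ω) (fun ω _ => sig b N χ ω)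
    (fun ω hω => h.sig_mem hχ hω) (fun ω hω => h.sig_mem hχ hω)
    (fun ω hω => h.sig_sig hχ hω) (fun ω hω => h.sig_sig hχ hω) (fun ω hω => rfl)

/-- `c χ = ∑ (b χ ω) ^ 2` -/
noncomputable def cc (V : Finset (Fin r → ℤ)) (b : (Fin r → ℤ) → ((Fin r → ℤ) →+ ℤ))
    (χ : Fin r → ℤ) : ℤ := ∑ ω ∈ V, b χ ω * b χ ω

theorem cc_pos (h : RS V W b N) {χ : Fin r → ℤ} (hχ : χ ∈ V) : 0 < cc V b χ := by
  have h1 : b χ χ * b χ χ ≤ cc V b χ :=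
    Finset.single_le_sum (f := fun ω => b χ ω * b χ ω) (fun ω _ => mul_self_nonneg _) hχ
  rw [h.two χ hχ] at h1
  have := h.N0
  nlinarith

theorem key (h : RS V W b N) {χ : Fin r → ℤ} (hχ : χ ∈ V) (l : (Fin r → ℤ) →+ ℤ) :
    2 * N * ∑ ω ∈ V, b χ ω * l ω = cc V b χ * l χ := by
  have h1 := h.sum_sig hχ (fun ω => N * (b χ ω * l ω))
  have h2 : ∀ ω ∈ V, N * (b χ (sig b N χ ω) * l (sig b N χ ω)) =
      -(N * (b χ ω * l ω)) + b χ ω * b χ ω * l χ := by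
    intro ω hω
    have h3 := h.div_mul hχ (h.sub ω hω)
    rw [h.b_sig hχ hω, sig, map_sub, map_zsmul, smul_eq_mul]
    linear_combination (b χ ω * l χ) * h3
  rw [Finset.sum_congr rfl h2, Finset.sum_add_distrib, Finset.sum_neg_distrib, ← Finset.sum_mul,
    ← Finset.mul_sum] at h1
  have h4 : (∑ ω ∈ V, b χ ω * b χ ω) = cc V b χ := rfl
  rw [h4] at h1
  linear_combination (-1 : ℤ) * h1

theorem symm_c (h : RS V W b N) {χ ψ : Fin r → ℤ} (hχ : χ ∈ V) (hψ : ψ ∈ V) :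
    cc V b χ * b ψ χ = cc V b ψ * b χ ψ := by
  rw [← h.key hχ (b ψ), ← h.key hψ (b χ)]
  congr 1
  exact Finset.sum_congr rfl fun ω _ => mul_comm _ _

theorem zero_of_sq {g : (Fin r → ℤ) →+ ℤ} (h0 : ∑ ω ∈ V, g ω * g ω = 0) {χ : Fin r → ℤ}
    (hχ : χ ∈ V) : g χ = 0 := by
  have h1 := (Finset.sum_eq_zero_iff_of_nonneg (fun ω _ => mul_self_nonneg _)).1 h0 χ hχ
  exact mul_self_eq_zero.1 h1

/-- the functional of a reflected vertex -/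
theorem refl_b (h : RS V W b N) {χ ψ : Fin r → ℤ} (hχ : χ ∈ V) (hψ : ψ ∈ V) {k : ℤ}
    (hk : b χ ψ = k * N) {ω : Fin r → ℤ} (hω : ω ∈ W) :
    N * b (ψ - k • χ) ω = N * b ψ ω - b ψ χ * b χ ω := by
  have hN := h.N0
  set χ' := ψ - k • χ with hχ'
  have hm : χ' ∈ V := h.refl χ hχ ψ hψ k hk
  set c := cc V b with hc
  have hs := h.symm_c hχ hψ
  rw [← hc] at hs
  set g : (Fin r → ℤ) →+ ℤ :=
    (c ψ * N) • b χ' - (c χ') • (N • b ψ - (b ψ χ) • b χ) with hg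
  have hgv : ∀ ω, g ω = c ψ * N * b χ' ω - c χ' * (N * b ψ ω - b ψ χ * b χ ω) := fun ω => by
    simp [hg, AddMonoidHom.sub_apply, AddMonoidHom.smul_apply, smul_eq_mul]
  have hB : ∀ l : (Fin r → ℤ) →+ ℤ, 2 * N * ∑ ω ∈ V, g ω * l ω = 0 := by
    intro l
    have e : ∑ ω ∈ V, g ω * l ω = c ψ * N * (∑ ω ∈ V, b χ' ω * l ω) -
        c χ' * (N * (∑ ω ∈ V, b ψ ω * l ω) - b ψ χ * (∑ ω ∈ V, b χ ω * l ω)) := by
      rw [Finset.mul_sum, Finset.mul_sum, Finset.mul_sum, ← Finset.sum_sub_distrib,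
        Finset.mul_sum, ← Finset.sum_sub_distrib]
      exact Finset.sum_congr rfl fun ω _ => by rw [hgv]; ring
    have k1 := h.key hm l
    have k2 := h.key hψ l
    have k3 := h.key hχ l
    have hl : l χ' = l ψ - k * l χ := by rw [hχ', map_sub, map_zsmul, smul_eq_mul]
    rw [← hc] at k1 k2 k3
    rw [e]
    rw [hk] at hs
    linear_combination c ψ * N * k1 - c χ' * N * k2 + c χ' * b ψ χ * k3 +
      (c ψ * N * c χ') * hl + c χ' * l χ * hs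
  have h0 : ∑ ω ∈ V, g ω * g ω = 0 := by
    have := hB g
    rcases mul_eq_zero.1 this with h1 | h1
    · omega
    · exact h1
  have hgV : ∀ ω ∈ V, g ω = 0 := fun ω hω => zero_of_sq h0 hω
  have h5 : b ψ χ' = 2 * N - k * b ψ χ := by
    rw [hχ', map_sub, map_zsmul, h.two ψ hψ, smul_eq_mul]
  have h6 : b χ χ' = -(k * N) := by
    rw [hχ', map_sub, map_zsmul, h.two χ hχ, smul_eq_mul, hk]; ring
  have h7 := hgV χ' hm
  rw [hgv, h.two χ' hm, h5, h6] at h7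
  have h8 : c ψ = c χ' := by
    have h9 : 2 * N * N * (c ψ - c χ') = 0 := by linear_combination h7
    have h10 : (2 * N * N : ℤ) ≠ 0 := by positivity
    have := (mul_eq_zero.1 h9).resolve_left h10
    omega
  have h11 := h.ext0 g hgV hω
  rw [hgv, h8] at h11
  have h12 : c χ' * (N * b χ' ω - (N * b ψ ω - b ψ χ * b χ ω)) = 0 := by
    linear_combination h11
  have h13 : c χ' ≠ 0 := (h.cc_pos hm).ne'
  have := (mul_eq_zero.1 h12).resolve_left h13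
  linarith

theorem neg_mem (h : RS V W b N) {χ : Fin r → ℤ} (hχ : χ ∈ V) : -χ ∈ V := by
  have h1 := h.refl χ hχ χ hχ 2 (h.two χ hχ)
  have h2 : χ - (2 : ℤ) • χ = -χ := by rw [two_smul]; abel
  rwa [h2] at h1

theorem neg_b (h : RS V W b N) {χ : Fin r → ℤ} (hχ : χ ∈ V) {ω : Fin r → ℤ} (hω : ω ∈ W) :
    b (-χ) ω = -b χ ω := by
  have h1 := h.refl_b hχ hχ (h.two χ hχ) hω
  have h2 : χ - (2 : ℤ) • χ = -χ := by rw [two_smul]; abel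
  rw [h2, h.two χ hχ] at h1
  have hN := h.N0
  have h3 : N * (b (-χ) ω + b χ ω) = 0 := by linear_combination h1
  have := (mul_eq_zero.1 h3).resolve_left hN.ne'
  linarith

end RS

end Vale.Agent.P280.N.H989
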