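import Vale.Agent.P280.H989.ND

/-! P280, plan N, stage 2: the structure of an interior weight, combinatorics. -/

namespace Vale.Agent.P280.N.H989

variable {r : ℕ} {V : Finset (Fin r → ℤ)} {W : Set (Fin r → ℤ)}
  {b : (Fin r → ℤ) → ((Fin r → ℤ) →+ ℤ)} {N : ℤ}

namespace RS

theorem le_N (h : RS V W b N) {χ ω : Fin r → ℤ} (hχ : χ ∈ V) (hω : ω ∈ W) (hne : ω ≠ χ) :
    b χ ω ≤ N := by
  by_cases h1 : ω = -χ
  · rw [h1, map_neg, h.two χ hχ]
    have := h.N0
    linarith
  · exact (abs_le.1 (h.bd χ hχ ω hω hne h1)).2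

theorem vals (h : RS V W b N) {χ ω : Fin r → ℤ} (hχ : χ ∈ V) (hω : ω ∈ W) (h1 : ω ≠ χ)
    (h2 : ω ≠ -χ) : b χ ω = 0 ∨ b χ ω = N ∨ b χ ω = -N := by
  have h3 := abs_le.1 (h.bd χ hχ ω hω h1 h2)
  obtain ⟨k, hk⟩ := h.dvd χ hχ ω hω
  have hN := h.N0
  have h4 : k ≤ 1 := by
    by_contra hk1
    have : 2 ≤ k := by omega
    nlinarith
  have h5 : -1 ≤ k := by
    by_contra hk1
    have : k ≤ -2 := by omega
    nlinarith
  have h6 : k = 0 ∨ k = 1 ∨ k = -1 := by omega
  rcases h6 with h6 | h6 | h6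
  · left; rw [hk, h6, mul_zero]
  · right; left; rw [hk, h6, mul_one]
  · right; right; rw [hk, h6]; ring

theorem symm_nonpos (h : RS V W b N) {χ ψ : Fin r → ℤ} (hχ : χ ∈ V) (hψ : ψ ∈ V)
    (h0 : b χ ψ ≤ 0) : b ψ χ ≤ 0 := by
  have h1 := h.symm_c hχ hψ
  have h2 := h.cc_pos hχ
  have h3 := h.cc_pos hψ
  by_contra h4
  have : 0 < cc V b χ * b ψ χ := mul_pos h2 (by omega)
  nlinarith

theorem symm_zero (h : RS V W b N) {χ ψ : Fin r → ℤ} (hχ : χ ∈ V) (hψ : ψ ∈ V)
    (h0 : b χ ψ = 0) : b ψ χ = 0 := by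
  have h1 := h.symm_c hχ hψ
  have h2 := h.cc_pos hχ
  rw [h0, mul_zero] at h1
  exact (mul_eq_zero.1 h1).resolve_left h2.ne'

end RS

/-- The vertices pairing to `N` with an interior weight. -/
structure KS (V : Finset (Fin r → ℤ)) (W : Set (Fin r → ℤ))
    (b : (Fin r → ℤ) → ((Fin r → ℤ) →+ ℤ)) (N : ℤ) (lam : Fin r → ℤ) {n : ℕ}
    (χ : Fin n → Fin r → ℤ) : Prop where
  h : RS V W b N
  lamW : lam ∈ W
  inj : Function.Injective χ
  mem : ∀ j, χ j ∈ V
  bl : ∀ j, b (χ j) lam = N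
  full : ∀ ψ ∈ V, b ψ lam = N → ∃ j, ψ = χ j
  pair : ∀ i j, i ≠ j → b (χ i) (χ j) = N
  vl : ∀ ψ ∈ V, b ψ lam = 0 ∨ b ψ lam = N ∨ b ψ lam = -N

theorem exists_KS (h : RS V W b N) {lam : Fin r → ℤ} (hlam : lam ∈ W) (hlV : lam ∉ V)
    (hint : ∀ l : (Fin r → ℤ) →+ ℤ, 0 < l lam → ∃ ω ∈ W, l lam < l ω) :
    ∃ (n : ℕ) (χ : Fin n → Fin r → ℤ), KS V W b N lam χ := by
  classical
  have hN := h.N0
  have hne : ∀ ψ ∈ V, lam ≠ ψ ∧ lam ≠ -ψ := fun ψ hψ =>
    ⟨fun h1 => hlV (h1 ▸ hψ), fun h1 => hlV (h1 ▸ h.neg_mem hψ)⟩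
  set K : Finset (Fin r → ℤ) := V.filter (fun χ => b χ lam = N) with hK
  refine ⟨K.card, fun j => (K.equivFin.symm j : Fin r → ℤ), h, hlam, ?_, ?_, ?_, ?_, ?_, ?_⟩
  · intro i j hij
    exact K.equivFin.symm.injective (Subtype.ext hij)
  · intro j
    exact (Finset.mem_filter.1 (K.equivFin.symm j).2).1
  · intro j
    exact (Finset.mem_filter.1 (K.equivFin.symm j).2).2
  · intro ψ hψ h1
    have h2 : ψ ∈ K := Finset.mem_filter.2 ⟨hψ, h1⟩
    exact ⟨K.equivFin ⟨ψ, h2⟩, by simp⟩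
  · have key : ∀ χ ∈ K, ∀ ψ ∈ K, χ ≠ ψ → b χ ψ = N := by
      intro χ hχ ψ hψ hne1
      obtain ⟨hχ, hχl⟩ := Finset.mem_filter.1 hχ
      obtain ⟨hψ, hψl⟩ := Finset.mem_filter.1 hψ
      have h1 : ψ ≠ -χ := by
        intro h2
        have h3 := h.neg_b hχ hlam
        rw [← h2, hψl, hχl] at h3
        omega
      rcases h.vals hχ (h.sub ψ hψ) (Ne.symm hne1) h1 with h2 | h2 | h2
      · exfalso
        have h3 := h.symm_nonpos hχ hψ h2.le
        obtain ⟨ω, hω, h4⟩ := hint (b χ + b ψ) (by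
          rw [AddMonoidHom.add_apply, hχl, hψl]; omega)
        rw [AddMonoidHom.add_apply, AddMonoidHom.add_apply, hχl, hψl] at h4
        have h5 := h.ext (b χ + b ψ) (2 * N) (by omega) (fun ρ hρ => by
          rw [AddMonoidHom.add_apply]
          by_cases e1 : ρ = χ
          · rw [e1, h.two χ hχ]; linarith
          · by_cases e2 : ρ = ψ
            · rw [e2, h.two ψ hψ]; linarith
            · have := h.le_N hχ (h.sub ρ hρ) e1
              have := h.le_N hψ (h.sub ρ hρ) e2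
              linarith) ω hω
        rw [AddMonoidHom.add_apply] at h5
        linarith
      · exact h2
      · exfalso
        have h3 := h.symm_nonpos hχ hψ (by omega)
        obtain ⟨ω, hω, h4⟩ := hint (b χ + b ψ) (by
          rw [AddMonoidHom.add_apply, hχl, hψl]; omega)
        rw [AddMonoidHom.add_apply, AddMonoidHom.add_apply, hχl, hψl] at h4
        have h5 := h.ext (b χ + b ψ) (2 * N) (by omega) (fun ρ hρ => by
          rw [AddMonoidHom.add_apply]
          by_cases e1 : ρ = χ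
          · rw [e1, h.two χ hχ]; linarith
          · by_cases e2 : ρ = ψ
            · rw [e2, h.two ψ hψ]; linarith
            · have := h.le_N hχ (h.sub ρ hρ) e1
              have := h.le_N hψ (h.sub ρ hρ) e2
              linarith) ω hω
        rw [AddMonoidHom.add_apply] at h5
        linarith
    intro i j hij
    apply key _ (K.equivFin.symm i).2 _ (K.equivFin.symm j).2
    intro h1
    exact hij (K.equivFin.symm.injective (Subtype.ext h1))
  · intro ψ hψ
    exact h.vals hψ hlam (hne ψ hψ).1 (hne ψ hψ).2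

namespace KS

variable {lam : Fin r → ℤ} {n : ℕ} {χ : Fin n → Fin r → ℤ}

/-- orthogonal vertices -/
def Orth (b : (Fin r → ℤ) → ((Fin r → ℤ) →+ ℤ)) (lam : Fin r → ℤ) {n : ℕ}
    (χ : Fin n → Fin r → ℤ) (ψ : Fin r → ℤ) : Prop :=
  b ψ lam = 0 ∧ (∀ j, b ψ (χ j) = 0) ∧ ∀ j, b (χ j) ψ = 0

theorem diff_mem (c : KS V W b N lam χ) {i j : Fin n} (hij : i ≠ j) : χ i - χ j ∈ V := by
  have h1 := c.h.refl (χ j) (c.mem j) (χ i) (c.mem i) 1 (by rw [c.pair j i hij.symm, one_mul])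
  rwa [one_smul] at h1

theorem diff_b (c : KS V W b N lam χ) {i j : Fin n} (hij : i ≠ j) {ω : Fin r → ℤ} (hω : ω ∈ W) :
    b (χ i - χ j) ω = b (χ i) ω - b (χ j) ω := by
  have h1 := c.h.refl_b (c.mem j) (c.mem i) (k := 1) (by rw [c.pair j i hij.symm, one_mul]) hω
  rw [one_smul, c.pair i j hij] at h1
  have h2 : N * (b (χ i - χ j) ω - (b (χ i) ω - b (χ j) ω)) = 0 := by linear_combination h1
  have := (mul_eq_zero.1 h2).resolve_left c.h.N0.ne'
  linarith

theorem dich (c : KS V W b N lam χ) {ψ : Fin r → ℤ} (hψ : ψ ∈ V) :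
    (∃ j, ψ = χ j) ∨ (∃ j, ψ = -χ j) ∨ (∃ i j, i ≠ j ∧ ψ = χ i - χ j) ∨ Orth b lam χ ψ := by
  have hN := c.h.N0
  rcases c.vl ψ hψ with h0 | h0 | h0
  · by_cases hall : ∀ j, b ψ (χ j) = 0
    · exact Or.inr (Or.inr (Or.inr ⟨h0, hall, fun j => c.h.symm_zero hψ (c.mem j) (hall j)⟩))
    · push Not at hall
      obtain ⟨i, hi⟩ := hall
      right; right; left
      have e1 : χ i ≠ ψ := by
        intro h1
        have := c.bl i
        rw [h1, h0] at this
        omega
      have e2 : χ i ≠ -ψ := by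
        intro h1
        have h2 := c.bl i
        rw [h1, c.h.neg_b hψ c.lamW, h0] at h2
        omega
      have key : ∀ k : ℤ, b ψ (χ i) = k * N → ∃ j, χ i - k • ψ = χ j := by
        intro k hk
        apply c.full _ (c.h.refl ψ hψ (χ i) (c.mem i) k hk)
        have h1 := c.h.refl_b hψ (c.mem i) hk c.lamW
        rw [h0, c.bl i] at h1
        have h2 : N * (b (χ i - k • ψ) lam - N) = 0 := by linear_combination h1
        have := (mul_eq_zero.1 h2).resolve_left hN.ne'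
        linarith
      rcases c.h.vals hψ (c.h.sub _ (c.mem i)) e1 e2 with h1 | h1 | h1
      · exact absurd h1 hi
      · obtain ⟨j, hj⟩ := key 1 (by rw [h1, one_mul])
        rw [one_smul] at hj
        refine ⟨i, j, ?_, ?_⟩
        · rintro rfl
          have h3 : ψ = 0 := by
            have : χ i - (χ i - ψ) = χ i - χ i := by rw [hj]
            simpa using this
          have := c.h.two ψ hψ
          rw [h3, map_zero] at this
          omega
        · rw [← hj]; abel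
      · obtain ⟨j, hj⟩ := key (-1) (by rw [h1]; ring)
        rw [neg_smul, one_smul, sub_neg_eq_add] at hj
        refine ⟨j, i, ?_, ?_⟩
        · rintro rfl
          have h3 : ψ = 0 := by simpa using hj
          have := c.h.two ψ hψ
          rw [h3, map_zero] at this
          omega
        · rw [← hj]; abel
  · exact Or.inl (c.full ψ hψ h0)
  · right; left
    obtain ⟨j, hj⟩ := c.full (-ψ) (c.h.neg_mem hψ) (by
      rw [c.h.neg_b hψ c.lamW, h0, neg_neg])
    exact ⟨j, by rw [← hj, neg_neg]⟩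

theorem one_le (c : KS V W b N lam χ) (h0 : lam ≠ 0) : 1 ≤ n := by
  by_contra hn
  have hn0 : n = 0 := by omega
  subst hn0
  apply h0
  apply c.h.nd
  · intro ψ hψ
    rcases c.dich hψ with ⟨j, _⟩ | ⟨j, _⟩ | ⟨j, _⟩ | h1
    · exact j.elim0
    · exact j.elim0
    · exact j.elim0
    · exact h1.1
  · intro g hg
    exact c.h.ext0 g hg c.lamW

/-- A vector killed by the `b (χ j)` and by the orthogonal vertices. -/
theorem nd' (c : KS V W b N lam χ) {ν : Fin r → ℤ} (hs : ν ∈ AddSubgroup.closure W)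
    (h1 : ∀ j, b (χ j) ν = 0) (h2 : ∀ ψ ∈ V, Orth b lam χ ψ → b ψ ν = 0) : ν = 0 := by
  have hfun : ∀ g g' : (Fin r → ℤ) →+ ℤ, (∀ ω ∈ W, g ω = g' ω) → g ν = g' ν := by
    intro g g' hg
    have h3 : AddSubgroup.closure W ≤ (g - g').ker := by
      rw [AddSubgroup.closure_le]
      intro ω hω
      rw [SetLike.mem_coe, AddMonoidHom.mem_ker, AddMonoidHom.sub_apply, hg ω hω, sub_self]
    have h4 := AddMonoidHom.mem_ker.1 (h3 hs)
    rw [AddMonoidHom.sub_apply] at h4
    linarith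
  apply c.h.nd
  · intro ψ hψ
    rcases c.dich hψ with ⟨j, rfl⟩ | ⟨j, rfl⟩ | ⟨i, j, hij, rfl⟩ | h3
    · exact h1 j
    · rw [hfun (b (-χ j)) (-(b (χ j))) (fun ω hω => by
        rw [c.h.neg_b (c.mem j) hω, AddMonoidHom.neg_apply]), AddMonoidHom.neg_apply, h1 j, neg_zero]
    · rw [hfun (b (χ i - χ j)) (b (χ i) - b (χ j)) (fun ω hω => by
        rw [c.diff_b hij hω, AddMonoidHom.sub_apply]), AddMonoidHom.sub_apply, h1 i, h1 j, sub_zero]
    · exact h2 ψ hψ h3
  · intro g hg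
    have := hfun g 0 (fun ω hω => by rw [c.h.ext0 g hg hω, AddMonoidHom.zero_apply])
    rw [this, AddMonoidHom.zero_apply]

theorem be (c : KS V W b N lam χ) (j i : Fin n) :
    b (χ j) (χ i - lam) = if i = j then N else 0 := by
  rw [map_sub, c.bl j]
  split_ifs with h1
  · rw [h1, c.h.two _ (c.mem j)]; ring
  · rw [c.pair j i (Ne.symm h1), sub_self]

theorem mem_cl (c : KS V W b N lam χ) (i : Fin n) : χ i - lam ∈ AddSubgroup.closure W :=
  sub_mem (AddSubgroup.subset_closure (c.h.sub _ (c.mem i))) (AddSubgroup.subset_closure c.lamW)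

theorem sum_eq (c : KS V W b N lam χ) : ∑ j, (χ j - lam) = lam := by
  have h0 : (∑ j, (χ j - lam)) - lam = 0 := by
    apply c.nd'
    · exact sub_mem (sum_mem fun j _ => c.mem_cl j) (AddSubgroup.subset_closure c.lamW)
    · intro j
      rw [map_sub, map_sum, Finset.sum_congr rfl (fun i _ => c.be j i), Finset.sum_ite_eq',
        if_pos (Finset.mem_univ j), c.bl j, sub_self]
    · intro ψ _ h3
      rw [map_sub, map_sum, h3.1, Finset.sum_eq_zero, sub_zero]
      intro j _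
      rw [map_sub, h3.2.1 j, h3.1, sub_zero]
  exact sub_eq_zero.1 h0

end KS

end Vale.Agent.P280.N.H989
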